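import Crest.Agent.N221.En.Defs

-- ▼ part N221/En/Main
section

/-! # Row 221, abstract ergodic layer: assembly (`MainT`, `Main`) (helper33) -/

set_option autoImplicit false

open MeasureTheory Set Filter Topology
open Crest.GeometryTopology.Submanifold

noncomputable section

namespace Crest.Agent.N221.En

theorem sMainT (hK1 : StmtK1) (hK2 : StmtK2) (hC : StmtC) (hT3 : StmtT3) (hG1 : StmtG1)
    (hG2 : StmtG2) (hG3 : StmtG3) (hF1 : StmtF1) (hF2 : StmtF2) (hF3 : StmtF3) (hF4 : StmtF4)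
    (hF5 : StmtF5) : StmtMainT := by
  intro Y _ _ _ _ _ μ _ φ τ hinv hτ hUp hLow hLPS
  obtain ⟨hSc, hSadd, hSb, hDU, hDL, hext⟩ := hF5 Y μ φ τ hτ
  have hDUp := hDU hUp
  obtain ⟨hDLow, hop⟩ := hDL hLow
  have hTc : Continuous (φ 1) := φ.continuous_toFun 1
  have hfc : Continuous (fS φ τ 1) := hSc.comp (continuous_const.prodMk continuous_id)
  have hUS : USpec φ := hF1 Y μ φ (fS φ τ) hinv hLPS
  obtain ⟨hdense, hconst⟩ := hF3 Y φ hUS
  have hks : ksEntropy μ (φ 1) = ∫ y, fS φ τ 1 y ∂μ := by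
    obtain ⟨P, hP, hle⟩ := hK2 Y μ (φ 1) (fS φ τ 1) hTc hinv hfc hDUp
    have hup := hK1 Y μ (φ 1) (fS φ τ 1) hTc hinv hfc hDLow
    have hgr : IsGreatest {h : ℝ | ∃ P : Finset (Set Y), IsPartitionMod μ P ∧
        h = ⨅ k : ℕ, partitionEntropy μ (iteratedJoin (φ 1) P (k + 1)) / (k + 1)}
        (∫ y, fS φ τ 1 y ∂μ) := by
      refine ⟨⟨P, hP, le_antisymm hle (hup P hP)⟩, ?_⟩
      rintro h ⟨Q, hQ, rfl⟩
      exact hup Q hQ
    exact hgr.csSup_eq
  refine ⟨hks, ⟨fun heq => ?_, ?_⟩, ?_, hdense⟩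
  · refine ⟨∫ y, fS φ τ 1 y ∂μ, ?_⟩
    have hsub : SubExp (φ 1) (∫ y, fS φ τ 1 y ∂μ) := by
      rw [← hC Y (φ 1) hTc, ← heq, hks]
    have hglue : DGlue (φ 1) := (hF2 Y φ).2 ((hF2 Y φ).1 _ hUS hLPS)
    have hex := hG1 Y μ (φ 1) (fS φ τ 1) hTc hfc hDUp hDLow hglue _ hsub
    obtain ⟨C, hC1⟩ := hG2 Y μ (φ 1) (fS φ τ 1) hTc hinv hfc hDUp hDLow _ hex le_rfl
    have hC2 := hG3 Y μ (φ 1) (fS φ τ 1) hTc hinv hfc hDLow _ C le_rfl hC1
    obtain ⟨C', hC'⟩ := hext (∫ y, fS φ τ 1 y ∂μ) C (fun z n => by rw [← hSb]; exact hC2 z n)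
    exact hF4 Y φ (fS φ τ) hSc hSadd hLPS hdense _ C' hC'
  · rintro ⟨h, a, ha, hcob⟩
    have hac : Continuous a := continuousOn_univ.1 ha
    obtain ⟨B, hB⟩ := isCompact_univ.exists_bound_of_continuousOn ha
    have hbd : ∀ (z : Y) (n : ℕ), |birkhoffSum (φ 1) (fS φ τ 1) n z - h * n| ≤ 2 * B := by
      intro z n
      rw [hSb, hcob z (mem_univ _)]
      have h1 := hB z (mem_univ _)
      have h2 := hB (φ n z) (mem_univ _)
      rw [Real.norm_eq_abs] at h1 h2
      calc |a z - a (φ n z)| ≤ |a z| + |a (φ n z)| := abs_sub _ _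
        _ ≤ 2 * B := by linarith
    obtain ⟨h1, h2⟩ := hT3 Y μ (φ 1) (fS φ τ 1) hTc hinv hfc hDUp hDLow h (2 * B) hbd
    rw [hks, h1, h2]
  · intro hti
    have hne : Nonempty Y := nonempty_of_isProbabilityMeasure μ
    obtain ⟨y0⟩ := hne
    refine ⟨τ y0, fun _ => 0, continuousOn_const, fun z _ t => ?_⟩
    have : fS φ τ t z = ∫ _ in (0 : ℝ)..t, τ y0 := by
      unfold fS
      congr 1
      funext s
      exact hconst τ hτ hti _ _
    rw [this, intervalIntegral.integral_const]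
    simp [mul_comm]

namespace MainAux

variable {E : Type} [MetricSpace E] [MeasurableSpace E] {X : Set E} {Φ : ℝ → E → E}
  {μ : Measure E} {τ : E → ℝ}

/-- The flow restricted to the subtype. -/
def flow (h : IsSys X Φ μ τ) : Flow ℝ X where
  toFun t z := ⟨Φ t z, h.maps t z.2⟩
  cont' := by
    refine Continuous.subtype_mk ?_ _
    have : Continuous (fun p : ℝ × X => ((p.1, (p.2 : E)) : ℝ × E)) := by fun_prop
    exact h.cont.comp_continuous this (fun p => ⟨mem_univ _, p.2.2⟩)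
  map_add' s t z := Subtype.ext (h.add s t z z.2)
  map_zero' z := Subtype.ext (h.zero z z.2)

@[simp] theorem flow_val (h : IsSys X Φ μ τ) (t : ℝ) (z : X) : ((flow h t z : X) : E) = Φ t z := rfl

theorem fS_eq (h : IsSys X Φ μ τ) (t : ℝ) (z : X) :
    fS (flow h) (fun y : X => τ y) t z = fS Φ τ t z := rfl

theorem image_fB (h : IsSys X Φ μ τ) (t ε : ℝ) (z : X) :
    Subtype.val '' fB univ (flow h) t ε z = fB X Φ t ε z := by
  ext y
  constructor
  · rintro ⟨y, ⟨-, hy⟩, rfl⟩
    exact ⟨y.2, hy⟩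
  · rintro ⟨hy, hd⟩
    exact ⟨⟨y, hy⟩, ⟨mem_univ _, hd⟩, rfl⟩

end MainAux

open MainAux in
theorem sMain (hMT : StmtMainT) (hTr : StmtTr) : StmtMain := by
  intro E _ _ _ X Φ μ τ h hUp hLow hLPS
  have : CompactSpace X := isCompact_iff_compactSpace.1 h.cpt
  have : PreconnectedSpace X := isPreconnected_iff_preconnectedSpace.1 h.conn
  have := h.prob
  have hXm : MeasurableSet X := h.cpt.isClosed.measurableSet
  have hemb : MeasurableEmbedding (Subtype.val : X → E) := MeasurableEmbedding.subtype_coe hXm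
  set ν : Measure X := μ.comap (Subtype.val : X → E) with hν
  have hνa : ∀ s : Set X, ν s = μ (Subtype.val '' s) := fun s => hemb.comap_apply μ s
  have : IsProbabilityMeasure ν := ⟨by
    rw [hνa, image_univ, Subtype.range_coe, ← univ_inter X, measure_inter_conull h.carried,
      measure_univ]⟩
  have hinv : MeasurePreserving (flow h 1) ν ν := by
    have hm : Measurable (flow h 1) := ((flow h).continuous_toFun 1).measurable
    refine ⟨hm, Measure.ext fun A hA => ?_⟩
    rw [Measure.map_apply hm hA, hνa, hνa, ← h.inv _ (hemb.measurableSet_image.2 hA)]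
    congr 1
    ext y
    constructor
    · rintro ⟨y, hy, rfl⟩
      exact ⟨y.2, ⟨_, hy, rfl⟩⟩
    · rintro ⟨hy, ⟨w, hw, hwe⟩⟩
      refine ⟨⟨y, hy⟩, ?_, rfl⟩
      have : flow h 1 ⟨y, hy⟩ = w := Subtype.ext hwe.symm
      simpa [this] using hw
  have hτ : Continuous (fun y : X => τ y) := continuousOn_iff_continuous_domRestrict.1 h.tcont
  have hreal : ∀ t ε (z : X), ν.real (fB univ (flow h) t ε z) = μ.real (fB X Φ t ε z) := by
    intro t ε z
    rw [Measure.real, Measure.real, hνa, image_fB]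
  have hUp' : VolUp univ (flow h) ν (fun y : X => τ y) := by
    obtain ⟨ε, hε, C, hC, hb⟩ := hUp
    exact ⟨ε, hε, C, hC, fun z _ t ht => by rw [hreal, fS_eq]; exact hb z z.2 t ht⟩
  have hLow' : VolLow univ (flow h) ν (fun y : X => τ y) := by
    intro ε hε
    obtain ⟨c, hc, hb⟩ := hLow ε hε
    exact ⟨c, hc, fun z _ t ht => by rw [hreal, fS_eq]; exact hb z z.2 t ht⟩
  have hLPS' : LPS univ (flow h) (fS (flow h) (fun y : X => τ y)) := by
    intro δ hδ
    obtain ⟨η, hη, hb⟩ := hLPS δ hδ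
    refine ⟨η, hη, fun x _ y _ hxy => ?_⟩
    obtain ⟨w, hw, r, r', hr, hr', h1, h2, h3, h4⟩ := hb x x.2 y y.2 hxy
    exact ⟨⟨w, hw⟩, mem_univ _, r, r', hr, hr', h1, h2, h3, h4⟩
  obtain ⟨-, hiff, hti, hdense⟩ := hMT X ν (flow h) (fun y : X => τ y) hinv hτ hUp' hLow' hLPS'
  have hcob : ∀ c : ℝ, Cob univ (flow h) (fS (flow h) (fun y : X => τ y)) c ↔
      Cob X Φ (fS Φ τ) c := by
    intro c
    constructor
    · rintro ⟨a, ha, hc⟩
      classical
      refine ⟨fun z => if hz : z ∈ X then a ⟨z, hz⟩ else 0, ?_, fun z hz t => ?_⟩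
      · rw [continuousOn_iff_continuous_domRestrict]
        have : X.domRestrict (fun z => if hz : z ∈ X then a ⟨z, hz⟩ else 0) = a := by
          funext z
          simp [z.2]
        rw [this]
        exact continuousOn_univ.1 ha
      · have := hc ⟨z, hz⟩ (mem_univ _) t
        simp only [dif_pos hz, dif_pos (h.maps t hz)]
        exact this
    · rintro ⟨a, ha, hc⟩
      exact ⟨fun z => a z, (continuousOn_iff_continuous_domRestrict.1 ha).continuousOn,
        fun z _ t => hc z z.2 t⟩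
  have hT : (h.maps 1).restrict (Φ 1) X X = flow h 1 := rfl
  refine ⟨?_, fun hinvτ => ?_, fun z hz => ?_⟩
  · rw [hTr E X μ (Φ 1) (h.maps 1) hXm h.carried, ← Dynamics.coverEntropy_restrict (h.maps 1), hT,
      hiff]
    exact exists_congr hcob
  · obtain ⟨c, hc⟩ := hti (fun t z => hinvτ t z z.2)
    exact ⟨c, (hcob c).1 hc⟩
  · have h1 : (⟨z, hz⟩ : X) ∈ closure {z : X | BiTrans univ (flow h) z} := hdense _
    have h2 := mem_closure_image continuous_subtype_val.continuousAt h1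
    refine closure_mono ?_ h2
    rintro _ ⟨w, hw, rfl⟩
    exact ⟨w.2, fun y hy ε hε R => hw ⟨y, hy⟩ (mem_univ _) ε hε R⟩

end Crest.Agent.N221.En
end
end

-- ▼ part N221/En/K0
section

/-! # Row 221, ergodic layer: `K0`, the word form of the entropy (helper36) -/

set_option autoImplicit false

open MeasureTheory Set Filter Topology
open Crest.GeometryTopology.Submanifold

noncomputable section

namespace Crest.Agent.N221.En

namespace K0

variable {Y : Type}

theorem disj (T : Y → Y) {P : Finset (Set Y)} (k : ℕ)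
    (hP : ∀ A ∈ P, ∀ B ∈ P, A ≠ B → Disjoint A B) (w w' : Fin k → P) (h : w ≠ w') :
    Disjoint (cyl T P k w) (cyl T P k w') := by
  obtain ⟨i, hi⟩ := Function.ne_iff.1 h
  have hd := hP _ (w i).2 _ (w' i).2 fun e => hi (Subtype.ext e)
  exact Set.disjoint_left.2 fun y h1 h2 =>
    Set.disjoint_left.1 hd (mem_iInter.1 h1 i) (mem_iInter.1 h2 i)

theorem mem_join {T : Y → Y} {P : Finset (Set Y)} {k : ℕ} {A : Set Y} :
    A ∈ iteratedJoin T P k ↔ ∃ w, cyl T P k w = A := by
  simp only [iteratedJoin, Finset.mem_image, Finset.mem_univ, true_and, cyl]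

variable [MeasurableSpace Y]

theorem ent_eq (μ : Measure Y) (Q : Finset (Set Y)) :
    partitionEntropy μ Q = ∑ A ∈ Q, Real.negMulLog (μ.real A) := by
  rw [partitionEntropy, ← Finset.sum_neg_distrib]
  exact Finset.sum_congr rfl fun A _ => by rw [Real.negMulLog, neg_mul]; rfl

end K0

open K0 in
theorem sK0 : StmtK0 := by
  intro Y _ μ T P k
  refine ⟨fun hP => ⟨disj T k hP, ?_⟩, fun _ hT hP => ?_, fun _ => ?_⟩
  · rw [ent_eq, iteratedJoin]
    exact Finset.sum_image_of_disjoint (g := fun A => Real.negMulLog (μ.real A)) (by simp)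
      fun w _ w' _ h => disj T k hP w w' h
  · have hm : ∀ w : Fin k → P, MeasurableSet (cyl T P k w) := fun w =>
      MeasurableSet.iInter fun i => (hT.iterate i).measurable (hP.1 _ (w i).2)
    have hae : ∀ᵐ y ∂μ, ∃ w : Fin k → P, y ∈ cyl T P k w := by
      have h0 : ∀ᵐ y ∂μ, y ∈ ⋃ A ∈ P, A := hP.2.2
      filter_upwards [ae_all_iff.2 fun i : Fin k =>
        (hT.iterate i).quasiMeasurePreserving.ae h0] with y hy
      simp only [mem_iUnion] at hy
      choose A hA hy using hy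
      exact ⟨fun i => ⟨A i, hA i⟩, mem_iInter.2 hy⟩
    refine ⟨hm, hae, fun g hg => ?_⟩
    rw [← integral_iUnion_fintype hm (fun w w' h => disj T k hP.2.1 w w' h)
      fun _ => hg.integrableOn, Measure.restrict_eq_self_of_ae_mem]
    filter_upwards [hae] with y hy using mem_iUnion.2 hy
  · rw [ent_eq]
    exact Finset.sum_nonneg fun A _ => Real.negMulLog_nonneg measureReal_nonneg measureReal_le_one

end Crest.Agent.N221.En
end
end

-- ▼ part N221/En/K1
section

/-! # Row 221, abstract ergodic layer: leaf K1 (`rate ≤ ∫ f`) (helper33) -/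

set_option autoImplicit false

open MeasureTheory Set Filter Topology
open Crest.GeometryTopology.Submanifold

noncomputable section

namespace Crest.Agent.N221.En

namespace K1

/-- Gibbs inequality. -/
theorem gibbs {ι : Type} [Fintype ι] (p a : ι → ℝ) (hp : ∀ i, 0 ≤ p i) (hs : ∑ i, p i = 1)
    {Z : ℝ} (hZ : 0 < Z) (s : Finset ι) (hs0 : ∀ i, i ∉ s → p i = 0)
    (hle : ∑ i ∈ s, Real.exp (a i) ≤ Z) :
    ∑ i, (Real.negMulLog (p i) + p i * a i) ≤ Real.log Z := by
  classical
  have h1 : ∀ i, Real.negMulLog (p i) + p i * a i ≤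
      p i * Real.log Z + ((if i ∈ s then Real.exp (a i) else 0) / Z - p i) := by
    intro i
    rcases (hp i).eq_or_lt with h0 | h0
    · rw [← h0]
      have : 0 ≤ (if i ∈ s then Real.exp (a i) else 0) / Z := by
        split_ifs
        · positivity
        · simp
      simpa using this
    · have hi : i ∈ s := by
        by_contra hi
        exact h0.ne' (hs0 i hi)
      rw [if_pos hi]
      have h2 := Real.log_le_sub_one_of_pos (x := Real.exp (a i) / (p i * Z)) (by positivity)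
      rw [Real.log_div (by positivity) (by positivity), Real.log_exp,
        Real.log_mul h0.ne' hZ.ne'] at h2
      have h3 : p i * (a i - (Real.log (p i) + Real.log Z)) ≤
          p i * (Real.exp (a i) / (p i * Z) - 1) := by gcongr
      have h4 : p i * (Real.exp (a i) / (p i * Z) - 1) = Real.exp (a i) / Z - p i := by
        field_simp
      rw [h4] at h3
      unfold Real.negMulLog
      linarith
  calc ∑ i, (Real.negMulLog (p i) + p i * a i)
      ≤ ∑ i, (p i * Real.log Z + ((if i ∈ s then Real.exp (a i) else 0) / Z - p i)) :=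
        Finset.sum_le_sum fun i _ => h1 i
    _ = Real.log Z + ((∑ i ∈ s, Real.exp (a i)) / Z - 1) := by
        rw [Finset.sum_add_distrib, ← Finset.sum_mul, Finset.sum_sub_distrib, hs, one_mul,
          ← Finset.sum_div, Finset.sum_ite_mem, Finset.univ_inter]
    _ ≤ Real.log Z := by
        have : (∑ i ∈ s, Real.exp (a i)) / Z ≤ 1 := (div_le_one hZ).2 hle
        linarith

theorem int_bS {Y : Type} [MeasurableSpace Y] {μ : Measure Y} {T : Y → Y}
    (hT : MeasurePreserving T μ μ) {g : Y → ℝ} (hg : Integrable g μ) (n : ℕ) :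
    Integrable (birkhoffSum T g n) μ ∧ ∫ y, birkhoffSum T g n y ∂μ = n * ∫ y, g y ∂μ := by
  have h1 : ∀ i : ℕ, Integrable (fun y => g (T^[i] y)) μ := fun i =>
    ((hT.iterate i).integrable_comp hg.aestronglyMeasurable).2 hg
  have h2 : ∀ i : ℕ, ∫ y, g (T^[i] y) ∂μ = ∫ y, g y ∂μ := fun i => by
    have h := integral_map (μ := μ) (hT.iterate i).measurable.aemeasurable (f := g)
      (by rw [(hT.iterate i).map_eq]; exact hg.aestronglyMeasurable)
    rw [(hT.iterate i).map_eq] at h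
    exact h.symm
  unfold birkhoffSum
  refine ⟨integrable_finsetSum _ fun i _ => h1 i, ?_⟩
  rw [integral_finsetSum _ fun i _ => h1 i]
  simp [h2]

/-- Lusin-type lemma for a finite partition. -/
theorem lusin {Y : Type} [MetricSpace Y] [CompactSpace Y] [MeasurableSpace Y] [BorelSpace Y]
    (μ : Measure Y) [IsProbabilityMeasure μ] {P : Finset (Set Y)} (hP : IsPartitionMod μ P)
    {δ : ℝ} (hδ : 0 < δ) :
    ∃ G : Set Y, MeasurableSet G ∧ μ.real Gᶜ ≤ δ ∧ ∃ ε > 0, ∀ x ∈ G, ∀ y ∈ G, dist x y < 2 * ε →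
      ∀ A ∈ P, ∀ B ∈ P, x ∈ A → y ∈ B → A = B := by
  obtain ⟨hm, hd, hc⟩ := hP
  have hK : ∀ A : P, ∃ K ⊆ (A : Set Y), IsCompact K ∧
      μ ((A : Set Y) \ K) < ENNReal.ofReal (δ / (P.card + 1)) := fun A =>
    (hm A A.2).exists_isCompact_sdiff_lt (measure_ne_top _ _)
      (ENNReal.ofReal_pos.2 (by positivity)).ne'
  choose K hKs hKc hKμ using hK
  refine ⟨⋃ A, K A, MeasurableSet.iUnion fun A => (hKc A).isClosed.measurableSet, ?_, ?_⟩
  · have hsub : (⋃ A, K A)ᶜ ⊆ (⋃ A ∈ P, A)ᶜ ∪ ⋃ A : P, ((A : Set Y) \ K A) := by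
      intro y hy
      by_cases h : y ∈ ⋃ A ∈ P, A
      · right
        simp only [mem_iUnion] at h
        obtain ⟨A, hA, hyA⟩ := h
        exact mem_iUnion.2 ⟨⟨A, hA⟩, hyA, fun hk => hy (mem_iUnion.2 ⟨_, hk⟩)⟩
      · exact Or.inl h
    calc μ.real (⋃ A, K A)ᶜ ≤ μ.real ((⋃ A ∈ P, A)ᶜ ∪ ⋃ A : P, ((A : Set Y) \ K A)) :=
          measureReal_mono hsub
      _ ≤ μ.real (⋃ A ∈ P, A)ᶜ + μ.real (⋃ A : P, ((A : Set Y) \ K A)) :=
          measureReal_union_le _ _
      _ ≤ 0 + ∑ A : P, μ.real ((A : Set Y) \ K A) := by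
          refine add_le_add (by rw [Measure.real, hc]; simp) (measureReal_iUnion_fintype_le _)
      _ ≤ 0 + ∑ _A : P, δ / (P.card + 1) := by
          gcongr with A
          exact ENNReal.toReal_le_of_le_ofReal (by positivity) (hKμ A).le
      _ ≤ δ := by
          rw [zero_add, Finset.sum_const, Finset.card_univ, Fintype.card_coe, nsmul_eq_mul,
            mul_div_assoc', div_le_iff₀ (by positivity)]
          nlinarith
  · have hZ : IsCompact (⋃ A : P, ⋃ B : P, ⋃ _ : A ≠ B, K A ×ˢ K B) :=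
      isCompact_iUnion fun A => isCompact_iUnion fun B => isCompact_iUnion fun _ =>
        (hKc A).prod (hKc B)
    obtain ⟨a, ha, hb⟩ := hZ.exists_forall_le' (f := fun q : Y × Y => dist q.1 q.2) (a := 0)
      (continuous_dist.continuousOn) (by
        intro q hq
        simp only [mem_iUnion] at hq
        obtain ⟨A, B, hAB, h1, h2⟩ := hq
        refine dist_pos.2 fun he => ?_
        have hne : (A : Set Y) ≠ B := fun h => hAB (Subtype.ext h)
        exact Set.disjoint_left.1 (hd A A.2 B B.2 hne) (hKs A h1) (he ▸ hKs B h2))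
    refine ⟨a / 2, by positivity, fun x hx y hy hxy A hA B hB hxA hyB => ?_⟩
    obtain ⟨A', hA'⟩ := mem_iUnion.1 hx
    obtain ⟨B', hB'⟩ := mem_iUnion.1 hy
    have e1 : A = A' := by
      by_contra h
      exact Set.disjoint_left.1 (hd A hA A' A'.2 h) hxA (hKs A' hA')
    have e2 : B = B' := by
      by_contra h
      exact Set.disjoint_left.1 (hd B hB B' B'.2 h) hyB (hKs B' hB')
    have e3 : A' = B' := by
      by_contra h
      have := hb (x, y) (by
        simp only [mem_iUnion]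
        exact ⟨A', B', h, hA', hB'⟩)
      simp only at this
      linarith
    rw [e1, e2, e3]

open Classical in
/-- The counting bound at a fixed point `y`. -/
theorem count {Y : Type} [MetricSpace Y] {T : Y → Y} {P : Finset (Set Y)} {G : Set Y} {ε : ℝ}
    (hsep : ∀ x ∈ G, ∀ y ∈ G, dist x y < 2 * ε → ∀ A ∈ P, ∀ B ∈ P, x ∈ A → y ∈ B → A = B)
    {n : ℕ} (s : Finset (Fin n → P)) (x : (Fin n → P) → Y) (hx : ∀ w ∈ s, x w ∈ cyl T P n w)
    (lam : ℝ) (y : Y) :
    ∑ w ∈ s, (bB T n ε (x w)).indicator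
        (fun _ => Real.exp (-(lam * birkhoffSum T (Gᶜ.indicator 1) n (x w)))) y ≤
      (1 + P.card * Real.exp (-lam)) ^ n := by
  set wt : Option P → ℝ := fun o => o.elim 1 fun _ => Real.exp (-lam) with hwt
  have hwt0 : ∀ o, 0 ≤ wt o := by
    rintro (_ | o)
    · simp [hwt]
    · simp only [hwt, Option.elim]; positivity
  set u : (Fin n → P) → Fin n → Option P :=
    fun w i => if T^[i] (x w) ∈ G then none else some (w i) with hu
  have hexp : ∀ w, Real.exp (-(lam * birkhoffSum T (Gᶜ.indicator 1) n (x w))) =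
      ∏ i, wt (u w i) := by
    intro w
    unfold birkhoffSum
    rw [Finset.mul_sum, ← Finset.sum_neg_distrib, Real.exp_sum, Finset.prod_range]
    refine Finset.prod_congr rfl fun i _ => ?_
    by_cases h : T^[i] (x w) ∈ G
    · simp [hu, hwt, h]
    · simp [hu, hwt, h]
  have hinj : Set.InjOn u (s.filter fun w => y ∈ bB T n ε (x w)) := by
    intro w hw w' hw' he
    simp only [Finset.coe_filter, mem_ofPred_eq] at hw hw'
    funext i
    have hi := congrFun he i
    simp only [hu] at hi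
    by_cases h : T^[i] (x w) ∈ G
    · by_cases h' : T^[i] (x w') ∈ G
      · refine Subtype.ext (hsep _ h _ h' ?_ _ (w i).2 _ (w' i).2 (mem_iInter.1 (hx w hw.1) i)
          (mem_iInter.1 (hx w' hw'.1) i))
        have h1 := hw.2 i i.2
        have h2 := hw'.2 i i.2
        calc dist (T^[i] (x w)) (T^[i] (x w'))
            ≤ dist (T^[i] y) (T^[i] (x w)) + dist (T^[i] y) (T^[i] (x w')) :=
              dist_triangle_left _ _ _
          _ < 2 * ε := by linarith
      · simp [h, h'] at hi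
    · by_cases h' : T^[i] (x w') ∈ G
      · simp [h, h'] at hi
      · simpa [h, h'] using hi
  calc ∑ w ∈ s, (bB T n ε (x w)).indicator
        (fun _ => Real.exp (-(lam * birkhoffSum T (Gᶜ.indicator 1) n (x w)))) y
      = ∑ w ∈ s.filter (fun w => y ∈ bB T n ε (x w)), ∏ i, wt (u w i) := by
        rw [Finset.sum_filter]
        refine Finset.sum_congr rfl fun w _ => ?_
        rw [indicator_apply, hexp]
    _ = ∑ v ∈ (s.filter (fun w => y ∈ bB T n ε (x w))).image u, ∏ i, wt (v i) :=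
        (Finset.sum_image (f := fun v : Fin n → Option P => ∏ i, wt (v i)) hinj).symm
    _ ≤ ∑ v : Fin n → Option P, ∏ i, wt (v i) :=
        Finset.sum_le_sum_of_subset_of_nonneg (Finset.subset_univ _) fun v _ _ =>
          Finset.prod_nonneg fun i _ => hwt0 _
    _ = (∑ o, wt o) ^ n := by
        rw [← Fintype.piFinset_univ, ← Finset.prod_univ_sum]
        simp
    _ = (1 + P.card * Real.exp (-lam)) ^ n := by
        rw [Fintype.sum_option]
        simp [hwt]

end K1

open K1 in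
theorem sK1 (h0 : StmtK0) (hS : StmtS0) : StmtK1 := by
  intro Y _ _ _ _ μ _ T f hTc hT hfc hLow P hP
  classical
  obtain ⟨hopen, -, -, -⟩ := hS Y T hTc
  have hfi : Integrable f μ :=
    hfc.integrable_of_hasCompactSupport (HasCompactSupport.of_compactSpace f)
  obtain ⟨y0⟩ : Nonempty Y := nonempty_of_isProbabilityMeasure μ
  refine le_of_forall_pos_le_add fun η2 hη2 => ?_
  set η := η2 / 2 with hηd
  have hη : 0 < η := by positivity
  obtain ⟨lam, hlam0, hlam⟩ : ∃ lam : ℝ, 0 < lam ∧ P.card * Real.exp (-lam) ≤ η := by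
    refine ⟨(P.card + 1) / η, by positivity, ?_⟩
    have h1 := Real.add_one_le_exp ((P.card + 1) / η)
    rw [Real.exp_neg, ← div_eq_mul_inv, div_le_iff₀ (Real.exp_pos _)]
    calc (P.card : ℝ) ≤ η * ((P.card + 1) / η + 1) := by
          rw [mul_add, mul_div_cancel₀ _ hη.ne']; linarith
      _ ≤ _ := by gcongr
  obtain ⟨G, hGm, hGμ, ε, hε, hsep⟩ := lusin μ hP (δ := η / lam) (by positivity)
  obtain ⟨c, hc, hlow⟩ := hLow ε hε
  have key : ∀ n : ℕ, partitionEntropy μ (iteratedJoin T P n) ≤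
      n * (∫ y, f y ∂μ + 2 * η) - Real.log c := by
    intro n
    obtain ⟨ha, hb, -⟩ := h0 Y μ T P n
    obtain ⟨-, hent⟩ := ha hP.2.1
    obtain ⟨hcm, -, hsum⟩ := hb inferInstance hT hP
    have hGi : Integrable (Gᶜ.indicator (1 : Y → ℝ)) μ :=
      (integrable_const (1 : ℝ)).indicator hGm.compl
    obtain ⟨i1, e1⟩ := int_bS hT hfi n
    obtain ⟨i2, e2⟩ := int_bS hT hGi n
    set ψ : Y → ℝ := fun y => -birkhoffSum T f n y -
      lam * birkhoffSum T (Gᶜ.indicator 1) n y with hψ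
    have hψi : Integrable ψ μ := i1.neg.sub (i2.const_mul _)
    have hψe : ∫ y, ψ y ∂μ = -(n * ∫ y, f y ∂μ) - lam * (n * μ.real Gᶜ) := by
      have i3 : Integrable (fun y => -birkhoffSum T f n y) μ := i1.neg
      rw [hψ, integral_sub i3 (i2.const_mul _), integral_neg, integral_const_mul, e1, e2,
        integral_indicator_one hGm.compl]
    have hch : ∀ w : Fin n → P, ∃ x : Y, (μ.real (cyl T P n w) ≠ 0 → x ∈ cyl T P n w) ∧
        ∫ y in cyl T P n w, ψ y ∂μ ≤ μ.real (cyl T P n w) * ψ x := by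
      intro w
      by_cases hw : μ (cyl T P n w) = 0
      · refine ⟨y0, fun h => absurd (by simp [Measure.real, hw]) h, ?_⟩
        rw [setIntegral_measure_zero _ hw]
        simp [Measure.real, hw]
      · obtain ⟨x, hx, hle⟩ := exists_setAverage_le hw (measure_ne_top _ _) hψi.integrableOn
        refine ⟨x, fun _ => hx, ?_⟩
        have hpos : 0 < μ.real (cyl T P n w) := ENNReal.toReal_pos hw (measure_ne_top _ _)
        rw [setAverage_eq, smul_eq_mul, inv_mul_le_iff₀ hpos] at hle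
        exact hle
    choose x hx hxle using hch
    set s : Finset (Fin n → P) := Finset.univ.filter fun w => μ.real (cyl T P n w) ≠ 0 with hs
    have hp1 : ∑ w : Fin n → P, μ.real (cyl T P n w) = 1 := by
      have := hsum (fun _ => (1 : ℝ)) (integrable_const _)
      simpa using this
    have hZ : ∑ w ∈ s, Real.exp (ψ (x w)) ≤ (1 + P.card * Real.exp (-lam)) ^ n / c := by
      rw [le_div_iff₀ hc, Finset.sum_mul]
      have hi : ∀ w ∈ s, Integrable (fun y => (bB T n ε (x w)).indicator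
          (fun _ => Real.exp (-(lam * birkhoffSum T (Gᶜ.indicator 1) n (x w)))) y) μ :=
        fun w _ => (integrable_const _).indicator (hopen n ε _).measurableSet
      calc ∑ w ∈ s, Real.exp (ψ (x w)) * c
          ≤ ∑ w ∈ s, ∫ y, (bB T n ε (x w)).indicator
            (fun _ => Real.exp (-(lam * birkhoffSum T (Gᶜ.indicator 1) n (x w)))) y ∂μ := by
            refine Finset.sum_le_sum fun w _ => ?_
            rw [integral_indicator_const _ (hopen n ε _).measurableSet, smul_eq_mul, hψ]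
            simp only
            rw [sub_eq_add_neg, Real.exp_add, mul_right_comm, mul_comm _ c]
            gcongr
            exact hlow _ _
        _ = ∫ y, ∑ w ∈ s, (bB T n ε (x w)).indicator
            (fun _ => Real.exp (-(lam * birkhoffSum T (Gᶜ.indicator 1) n (x w)))) y ∂μ :=
            (integral_finsetSum _ hi).symm
        _ ≤ ∫ _, (1 + P.card * Real.exp (-lam)) ^ n ∂μ :=
            integral_mono (integrable_finsetSum _ hi) (integrable_const _) fun y =>
              count hsep s x (fun w hw => hx w (Finset.mem_filter.1 hw).2) lam y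
        _ = _ := by simp
    have hg := gibbs (fun w => μ.real (cyl T P n w)) (fun w => ψ (x w))
      (fun _ => measureReal_nonneg) hp1 (by positivity) s
      (fun w hw => by simpa [hs] using hw) hZ
    rw [Finset.sum_add_distrib, ← hent] at hg
    have h1 : ∫ y, ψ y ∂μ ≤ ∑ w : Fin n → P, μ.real (cyl T P n w) * ψ (x w) := by
      rw [← hsum ψ hψi]
      exact Finset.sum_le_sum fun w _ => hxle w
    have h2 : Real.log ((1 + P.card * Real.exp (-lam)) ^ n / c) ≤ n * η - Real.log c := by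
      rw [Real.log_div (by positivity) hc.ne', Real.log_pow]
      have := Real.log_le_sub_one_of_pos (x := 1 + P.card * Real.exp (-lam)) (by positivity)
      gcongr
      linarith
    have h3 : lam * (n * μ.real Gᶜ) ≤ n * η := by
      calc lam * (n * μ.real Gᶜ) ≤ lam * (n * (η / lam)) := by gcongr
        _ = n * η := by field_simp
    linarith
  have hbdd : BddBelow (range fun k : ℕ =>
      partitionEntropy μ (iteratedJoin T P (k + 1)) / (k + 1)) := by
    refine ⟨0, ?_⟩
    rintro _ ⟨k, rfl⟩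
    exact div_nonneg ((h0 Y μ T P (k + 1)).2.2 inferInstance) (by positivity)
  have hk : ∀ k : ℕ, rate μ T P ≤ ∫ y, f y ∂μ + η2 + (-Real.log c) * (1 / ((k : ℝ) + 1)) := by
    intro k
    refine (ciInf_le hbdd k).trans ?_
    rw [div_le_iff₀ (by positivity)]
    refine (key (k + 1)).trans (le_of_eq ?_)
    push_cast
    rw [hηd]
    field_simp
    ring
  have hlim : Tendsto (fun k : ℕ => ∫ y, f y ∂μ + η2 + (-Real.log c) * (1 / ((k : ℝ) + 1))) atTop
      (𝓝 (∫ y, f y ∂μ + η2 + (-Real.log c) * 0)) :=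
    tendsto_const_nhds.add (tendsto_one_div_add_atTop_nhds_zero_nat.const_mul _)
  simpa using ge_of_tendsto' hlim hk

end Crest.Agent.N221.En
end
end

-- ▼ part N221/En/K2
section

/-! # Row 221, abstract ergodic layer: leaf K2 (helper66) -/

set_option autoImplicit false

open MeasureTheory Set Filter Topology
open Crest.GeometryTopology.Submanifold

noncomputable section

namespace Crest.Agent.N221.En

namespace K2

variable {Y : Type} [MetricSpace Y] [CompactSpace Y]

theorem modulus {T : Y → Y} (hT : Continuous T) {ε : ℝ} (hε : 0 < ε) (m : ℕ) :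
    ∃ δ > 0, ∀ p q : Y, dist p q < δ → ∀ i ≤ m, dist (T^[i] p) (T^[i] q) < ε := by
  have h1 : ∀ i : ℕ, ∃ δ > 0, ∀ p q : Y, dist p q < δ → dist (T^[i] p) (T^[i] q) < ε := fun i =>
    let ⟨δ, hδ, h⟩ := Metric.uniformContinuous_iff.1
      (CompactSpace.uniformContinuous_of_continuous (hT.iterate i)) ε hε
    ⟨δ, hδ, fun _ _ hpq => h hpq⟩
  induction m with
  | zero =>
    obtain ⟨δ, hδ, h⟩ := h1 0
    exact ⟨δ, hδ, fun p q hpq i hi => by rw [Nat.le_zero.1 hi]; exact h p q hpq⟩
  | succ m ih =>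
    obtain ⟨δ, hδ, h⟩ := ih
    obtain ⟨δ', hδ', h'⟩ := h1 (m + 1)
    refine ⟨min δ δ', lt_min hδ hδ', fun p q hpq i hi => ?_⟩
    rcases hi.eq_or_lt with rfl | hi
    · exact h' p q (hpq.trans_le (min_le_right _ _))
    · exact h p q (hpq.trans_le (min_le_left _ _)) i (by omega)

variable [MeasurableSpace Y] [BorelSpace Y]

theorem part (μ : Measure Y) {δ : ℝ} (hδ : 0 < δ) : ∃ P : Finset (Set Y), IsPartitionMod μ P ∧
    ∀ A ∈ P, ∀ x ∈ A, ∀ y ∈ A, dist x y < δ := by
  classical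
  obtain ⟨t, -, ht, hc⟩ := finite_cover_balls_of_compact (isCompact_univ (X := Y)) (half_pos hδ)
  lift t to Finset Y using ht
  let A : Finset Y → Set Y := fun s => ⋂ c ∈ t, {y | dist y c < δ / 2 ↔ c ∈ s}
  have hA : ∀ s y, y ∈ A s ↔ ∀ c ∈ t, (dist y c < δ / 2 ↔ c ∈ s) := fun s y => by simp [A]
  refine ⟨t.powerset.image A, ⟨?_, ?_, ?_⟩, ?_⟩
  · intro B hB
    obtain ⟨s, -, rfl⟩ := Finset.mem_image.1 hB
    refine Finset.measurableSet_biInter t fun c _ => ?_
    have hm : MeasurableSet {y : Y | dist y c < δ / 2} := Metric.isOpen_ball.measurableSet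
    by_cases h : c ∈ s
    · simpa [h] using hm
    · simpa [h, compl_ofPred] using hm.compl
  · intro B hB B' hB' hne
    obtain ⟨s, -, rfl⟩ := Finset.mem_image.1 hB
    obtain ⟨s', -, rfl⟩ := Finset.mem_image.1 hB'
    refine disjoint_left.2 fun y hy hy' => hne ?_
    ext z
    rw [hA] at hy hy'
    rw [hA, hA]
    exact forall₂_congr fun c hc => by rw [← hy c hc, ← hy' c hc]
  · have : (⋃ B ∈ t.powerset.image A, B) = univ := by
      refine eq_univ_of_forall fun y => ?_
      refine mem_iUnion₂.2 ⟨A (t.filter fun c => dist y c < δ / 2),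
        Finset.mem_image_of_mem _ (Finset.mem_powerset.2 (Finset.filter_subset _ _)), ?_⟩
      rw [hA]
      intro c hc
      simp [hc]
    rw [this, compl_univ, measure_empty]
  · intro B hB x hx y hy
    obtain ⟨s, -, rfl⟩ := Finset.mem_image.1 hB
    rw [hA] at hx hy
    obtain ⟨c, hct, hxc⟩ := mem_iUnion₂.1 (hc (mem_univ x))
    have h1 : dist x c < δ / 2 := hxc
    have h2 := (hy c hct).2 ((hx c hct).1 h1)
    linarith [dist_triangle_right x y c]

omit [CompactSpace Y] [MeasurableSpace Y] [BorelSpace Y] in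
theorem cont_birk {T : Y → Y} {f : Y → ℝ} (hT : Continuous T) (hf : Continuous f) (n : ℕ) :
    Continuous (birkhoffSum T f n) :=
  continuous_finsetSum _ fun i _ => hf.comp (hT.iterate i)

theorem intg (μ : Measure Y) [IsFiniteMeasure μ] {g : Y → ℝ} (hg : Continuous g) :
    Integrable g μ :=
  hg.integrable_of_hasCompactSupport (HasCompactSupport.of_compactSpace g)

theorem int_birk (μ : Measure Y) [IsFiniteMeasure μ] {T : Y → Y} {f : Y → ℝ} (hT : Continuous T)
    (hμ : MeasurePreserving T μ μ) (hf : Continuous f) (n : ℕ) :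
    ∫ y, birkhoffSum T f n y ∂μ = n * ∫ y, f y ∂μ := by
  unfold birkhoffSum
  rw [integral_finsetSum (f := fun i y => f (T^[i] y)) _ fun i _ =>
    intg μ (hf.comp (hT.iterate i))]
  have : ∀ i, ∫ y, f (T^[i] y) ∂μ = ∫ y, f y ∂μ := fun i => by
    rw [← integral_map (hμ.iterate i).measurable.aemeasurable hf.aestronglyMeasurable,
      (hμ.iterate i).map_eq]
  simp [this]

end K2

open K2 in
theorem sK2 (h0 : StmtK0) : StmtK2 := by
  intro Y _ _ _ _ μ _ T f hT hμ hf ⟨ε, hε, C, hC, hup⟩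
  obtain ⟨m, hm⟩ : ∃ m : ℕ, ∫ y, f y ∂μ ≤ 0 ∨ Real.log C ≤ m * ∫ y, f y ∂μ := by
    rcases le_or_gt (∫ y, f y ∂μ) 0 with h | h
    · exact ⟨0, .inl h⟩
    · obtain ⟨m, hm⟩ := exists_nat_ge (Real.log C / ∫ y, f y ∂μ)
      exact ⟨m, .inr ((div_le_iff₀ h).1 hm)⟩
  obtain ⟨δ, hδ, hmod⟩ := modulus hT hε m
  obtain ⟨P, hP, hd⟩ := part μ hδ
  refine ⟨P, hP, le_ciInf fun k => ?_⟩
  obtain ⟨ha, hb, hc⟩ := h0 Y μ T P (k + 1)
  have hk : (0 : ℝ) < k + 1 := by positivity
  rcases hm with hm | hm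
  · exact hm.trans (div_nonneg (hc inferInstance) hk.le)
  obtain ⟨hme, -, hs⟩ := hb inferInstance hμ hP
  have hS := cont_birk hT hf (k + 1 + m)
  have hg : Integrable (fun y => birkhoffSum T f (k + 1 + m) y - Real.log C) μ :=
    intg μ (hS.sub continuous_const)
  rw [le_div_iff₀ hk, (ha hP.2.1).2]
  calc (∫ y, f y ∂μ) * (k + 1)
      ≤ ∫ y, (birkhoffSum T f (k + 1 + m) y - Real.log C) ∂μ := by
        rw [integral_sub (intg μ hS) (integrable_const _), int_birk μ hT hμ hf]
        simp only [integral_const, probReal_univ, smul_eq_mul, one_mul]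
        push_cast
        linarith
    _ = _ := (hs _ hg).symm
    _ ≤ _ := Finset.sum_le_sum fun w _ => ?_
  rcases (measureReal_nonneg (μ := μ) (s := cyl T P (k + 1) w)).eq_or_lt with hz | hz
  · rw [← hz, Real.negMulLog_zero,
      setIntegral_measure_zero _ ((measureReal_eq_zero_iff (by finiteness)).1 hz.symm)]
  have hb : ∀ x ∈ cyl T P (k + 1) w, birkhoffSum T f (k + 1 + m) x - Real.log C ≤
      -Real.log (μ.real (cyl T P (k + 1) w)) := by
    intro x hx
    have hsub : cyl T P (k + 1) w ⊆ bB T (k + 1 + m) ε x := by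
      intro y hy i hi
      obtain ⟨j, l, hj, hl, rfl⟩ : ∃ j l, j ≤ m ∧ l < k + 1 ∧ i = j + l :=
        ⟨i - min i k, min i k, by omega, by omega, by omega⟩
      rw [Function.iterate_add_apply, Function.iterate_add_apply]
      exact hmod _ _ (hd _ (w ⟨l, hl⟩).2 _ (mem_iInter.1 hy ⟨l, hl⟩) _ (mem_iInter.1 hx ⟨l, hl⟩))
        j hj
    have h1 := Real.log_le_log hz ((measureReal_mono hsub).trans (hup x _))
    rw [Real.log_mul hC.ne' (Real.exp_pos _).ne', Real.log_exp] at h1
    linarith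
  refine (setIntegral_mono_on hg.integrableOn (integrable_const _).integrableOn (hme w) hb).trans_eq
    ?_
  rw [setIntegral_const, smul_eq_mul, Real.negMulLog]
  ring

end Crest.Agent.N221.En
end
end

-- ▼ part N221/En/S0
section

/-!
# Row 221, ergodic layer: separated and spanning sets (helper43)
-/

set_option autoImplicit false

open Set Filter Topology

namespace Crest.Agent.N221.En

namespace S0

variable {Y : Type} [MetricSpace Y] {T : Y → Y} {n : ℕ} {ε ε' : ℝ} {x y z : Y}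

theorem symm (h : y ∈ bB T n ε x) : x ∈ bB T n ε y := fun i hi => dist_comm (T^[i] y) _ ▸ h i hi

theorem tri (h : y ∈ bB T n ε x) (h' : z ∈ bB T n ε' y) : z ∈ bB T n (ε + ε') x := fun i hi =>
  (dist_triangle _ (T^[i] y) _).trans_lt (by linarith [h i hi, h' i hi])

theorem self (h : 0 < ε) : x ∈ bB T n ε x := fun i _ => by simpa using h

theorem isOpen (hT : Continuous T) : IsOpen (bB T n ε z) := by
  have : bB T n ε z = ⋂ i ∈ Finset.range n, T^[i] ⁻¹' Metric.ball (T^[i] z) ε := by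
    ext y; simp [bB]
  rw [this]
  exact isOpen_biInter_finset fun i _ => Metric.isOpen_ball.preimage (hT.iterate i)

/-- a ball of radius `ε / 2` holds at most one point of an `ε`-separated set -/
theorem card_le {F s : Finset Y} (hF : Sep T n ε F) (hs : ∀ y, ∃ x ∈ s, y ∈ bB T n (ε / 2) x) :
    F.card ≤ s.card := by
  choose c hc hc' using hs
  refine Finset.card_le_card_of_injOn c (fun y _ => hc y) fun a ha b hb hab => ?_
  by_contra hne
  have := tri (symm (hc' a)) (hab ▸ hc' b)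
  rw [add_halves] at this
  exact hF a ha b hb hne this

theorem exists_span [CompactSpace Y] (hT : Continuous T) (n : ℕ) (h : 0 < ε) :
    ∃ s : Finset Y, ∀ y, ∃ x ∈ s, y ∈ bB T n ε x := by
  obtain ⟨s, hs⟩ := isCompact_univ.elim_finite_subcover (fun x => bB T n ε x)
    (fun _ => isOpen hT) fun y _ => mem_iUnion.2 ⟨y, self h⟩
  exact ⟨s, fun y => by simpa using hs (mem_univ y)⟩

end S0

open S0

theorem sS0 : StmtS0 := by
  classical
  intro Y _ _ T hT
  refine ⟨fun _ _ _ => isOpen hT, fun _ _ _ _ => symm, fun _ _ _ _ _ _ => tri, fun n ε hε => ?_⟩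
  obtain ⟨s, hs⟩ := exists_span hT n (half_pos hε)
  have h0 : Sep T n ε ∅ := fun x hx => absurd hx (Finset.notMem_empty x)
  obtain ⟨F, hF, hk⟩ : ∃ F : Finset Y, Sep T n ε F ∧ F.card = Nat.findGreatest
      (fun k => ∃ F : Finset Y, Sep T n ε F ∧ F.card = k) s.card :=
    Nat.findGreatest_spec (P := fun k => ∃ F : Finset Y, Sep T n ε F ∧ F.card = k)
      (Nat.zero_le _) ⟨∅, h0, rfl⟩
  have hmax : ∀ G : Finset Y, Sep T n ε G → G.card ≤ F.card := fun G hG =>
    hk ▸ Nat.le_findGreatest (card_le hG hs) ⟨G, hG, rfl⟩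
  refine ⟨F, hF, fun y => ?_, hmax⟩
  by_contra hy
  push Not at hy
  have hyF : y ∉ F := fun h => hy y h (self hε)
  have : Sep T n ε (insert y F) := by
    intro a ha b hb hab
    rcases Finset.mem_insert.1 ha with rfl | ha' <;> rcases Finset.mem_insert.1 hb with rfl | hb'
    · exact absurd rfl hab
    · exact fun h => hy b hb' (symm h)
    · exact hy a ha'
    · exact hF a ha' b hb' hab
  have := hmax _ this
  rw [Finset.card_insert_of_notMem hyF] at this
  omega

end Crest.Agent.N221.En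
end

-- ▼ part N221/En/C
section

/-!
# Row 221, ergodic layer: `coverEntropy` through separated sets (helper43)
-/

set_option autoImplicit false

open Set Filter Topology Dynamics ExpGrowth
open scoped ENNReal

namespace Crest.Agent.N221.En

namespace C

variable {Y : Type} [MetricSpace Y] {T : Y → Y} {n : ℕ} {ε : ℝ}

theorem cover_iff {s : Finset Y} :
    IsDynCoverOf T univ {p : Y × Y | dist p.1 p.2 < ε} n s ↔ ∀ y, ∃ x ∈ s, y ∈ bB T n ε x := by
  refine ⟨fun h y => ?_, fun h y _ => ?_⟩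
  · obtain ⟨x, hx, hxy⟩ := h (mem_univ y)
    exact ⟨x, hx, mem_dynEntourage.1 hxy⟩
  · obtain ⟨x, hx, hxy⟩ := h y
    exact ⟨x, hx, mem_dynEntourage.2 hxy⟩

theorem exp_eq (a : ℝ) (n : ℕ) :
    EReal.exp ((a : EReal) * n) = ENNReal.ofReal (Real.exp (a * n)) := by
  rw [← EReal.exp_coe, EReal.coe_mul]; rfl

end C

open C

theorem sC (hS : StmtS0) : StmtC := by
  intro Y _ _ T hT h
  obtain ⟨-, -, -, hS⟩ := hS Y T hT
  rw [coverEntropy_eq_iSup_basis Metric.uniformity_basis_dist, iSup₂_le_iff]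
  constructor
  · intro H ε hε η hη
    have h1 : coverEntropyEntourage T univ {p : Y × Y | dist p.1 p.2 < ε / 2} < (h + η : ℝ) :=
      (H _ (half_pos hε)).trans_lt (by exact_mod_cast lt_add_of_pos_right h hη)
    obtain ⟨N, hN⟩ := eventually_atTop.1 (eventually_le_exp h1)
    choose F hF _ hF' using fun n => hS n ε hε
    refine ⟨1 + ∑ m ∈ Finset.range N, (F m).card * Real.exp (-((h + η) * m)), fun n G hG => ?_⟩
    have p0 : ∀ m ∈ Finset.range N, 0 ≤ ((F m).card : ℝ) * Real.exp (-((h + η) * m)) :=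
      fun m _ => by positivity
    have e0 := Real.exp_pos ((h + η) * n)
    rcases lt_or_ge n N with hn | hn
    · have a1 := Finset.single_le_sum p0 (Finset.mem_range.2 hn)
      have a2 : (G.card : ℝ) ≤ (F n).card := by exact_mod_cast hF' n G hG
      have a3 : ((F n).card : ℝ) * Real.exp (-((h + η) * n)) * Real.exp ((h + η) * n)
          = (F n).card := by rw [mul_assoc, ← Real.exp_add]; simp
      nlinarith [mul_le_mul_of_nonneg_right a1 e0.le]
    · have a1 := hN n hn
      rw [exp_eq] at a1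
      have a2 : (G.card : ℕ∞) ≤ coverMincard T univ {p : Y × Y | dist p.1 p.2 < ε / 2} n :=
        le_iInf₂ fun s hs => by exact_mod_cast S0.card_le hG (cover_iff.1 hs)
      have a3 := (ENat.toENNReal_mono a2).trans a1
      rw [ENat.toENNReal_coe, ← ENNReal.ofReal_natCast, ENNReal.ofReal_le_ofReal_iff e0.le] at a3
      nlinarith [mul_nonneg (Finset.sum_nonneg p0) e0.le]
  · intro H ε hε
    refine EReal.le_of_forall_lt_iff_le.1 fun b hb => ?_
    have hb' : h < b := by exact_mod_cast hb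
    obtain ⟨C, hC⟩ := H ε hε (b - h) (sub_pos.2 hb')
    rw [← expGrowthSup_exp (a := (b : EReal))]
    refine expGrowthSup_le_of_eventually_le (b := ENNReal.ofReal (max C 0)) ENNReal.ofReal_ne_top
      (Eventually.of_forall fun n => ?_)
    obtain ⟨F, hF, hF', -⟩ := hS n ε hε
    refine (ENat.toENNReal_mono (cover_iff.2 hF').coverMincard_le_card).trans ?_
    rw [exp_eq, ENat.toENNReal_coe, ← ENNReal.ofReal_natCast, ← ENNReal.ofReal_mul (le_max_right _ _)]
    refine ENNReal.ofReal_le_ofReal ((hC n F hF).trans ?_)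
    rw [add_sub_cancel]
    exact mul_le_mul_of_nonneg_right (le_max_left _ _) (Real.exp_pos _).le

end Crest.Agent.N221.En
end

-- ▼ part N221/En/T3
section

/-! # Row 221, abstract ergodic layer: leaf T3 (helper66) -/

set_option autoImplicit false

open MeasureTheory Set Filter Topology

noncomputable section

namespace Crest.Agent.N221.En

namespace T3

variable {Y : Type} [MetricSpace Y] [CompactSpace Y] [MeasurableSpace Y] [BorelSpace Y]

theorem intg (μ : Measure Y) [IsFiniteMeasure μ] {g : Y → ℝ} (hg : Continuous g) :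
    Integrable g μ :=
  hg.integrable_of_hasCompactSupport (HasCompactSupport.of_compactSpace g)

theorem int_birk (μ : Measure Y) [IsFiniteMeasure μ] {T : Y → Y} {f : Y → ℝ} (hT : Continuous T)
    (hμ : MeasurePreserving T μ μ) (hf : Continuous f) (n : ℕ) :
    ∫ y, birkhoffSum T f n y ∂μ = n * ∫ y, f y ∂μ := by
  unfold birkhoffSum
  rw [integral_finsetSum (f := fun i y => f (T^[i] y)) _ fun i _ =>
    intg μ (hf.comp (hT.iterate i))]
  have : ∀ i, ∫ y, f (T^[i] y) ∂μ = ∫ y, f y ∂μ := fun i => by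
    rw [← integral_map (hμ.iterate i).measurable.aemeasurable hf.aestronglyMeasurable,
      (hμ.iterate i).map_eq]
  simp [this]

theorem not_bdd {d K : ℝ} (hd : 0 < d) (h : ∀ n : ℕ, d * n ≤ K) : False := by
  obtain ⟨n, hn⟩ := exists_nat_gt (K / d)
  rw [div_lt_iff₀ hd] at hn
  linarith [h n]

end T3

open T3 in
theorem sT3 (hS : StmtS0) (hC : StmtC) : StmtT3 := by
  intro Y _ _ _ _ μ _ T f hT hμ hf ⟨ε, hε, C₀, hC₀, hup⟩ hlow h C hb
  obtain ⟨hop, hsy, htr, hmax⟩ := hS Y T hT
  refine ⟨?_, le_antisymm ((hC Y T hT h).2 fun e he η hη => ?_) (not_lt.1 fun hlt => ?_)⟩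
  · by_contra hne
    refine not_bdd (abs_pos.2 (sub_ne_zero.2 hne)) (K := C) fun n => ?_
    have hc : Continuous (birkhoffSum T f n) :=
      continuous_finsetSum _ fun i _ => hf.comp (hT.iterate i)
    have h1 : ∫ y, (birkhoffSum T f n y - h * n) ∂μ = ((∫ y, f y ∂μ) - h) * n := by
      rw [integral_sub (intg μ hc) (integrable_const _), int_birk μ hT hμ hf]
      simp only [integral_const, probReal_univ, smul_eq_mul, one_mul]
      ring
    have h2 := norm_integral_le_of_norm_le_const (μ := μ) (C := C)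
      (f := fun y => birkhoffSum T f n y - h * n) (.of_forall fun y => hb y n)
    rwa [h1, probReal_univ, mul_one, Real.norm_eq_abs, abs_mul, Nat.abs_cast] at h2
  · obtain ⟨c, hc, hl⟩ := hlow (e / 2) (half_pos he)
    refine ⟨Real.exp C / c, fun n F hF => ?_⟩
    have h1 : ∑ x ∈ F, μ.real (bB T n (e / 2) x) ≤ 1 := by
      rw [← probReal_univ (μ := μ)]
      refine sum_measureReal_le_measureReal_univ (fun x _ => (hop _ _ _).measurableSet) ?_
      intro x hx x' hx' hne
      refine disjoint_left.2 fun y hy hy' => hF x hx x' hx' hne ?_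
      simpa using htr n _ _ x y x' hy (hsy n _ x' y hy')
    have h2 : F.card * (c * Real.exp (-(h * n + C))) ≤ 1 := by
      refine le_trans ?_ h1
      rw [← nsmul_eq_mul]
      refine Finset.card_nsmul_le_sum _ _ _ fun x _ => le_trans ?_ (hl x n)
      gcongr
      linarith [(abs_le.1 (hb x n)).2]
    have h3 : Real.exp (-(h * n + C)) * (Real.exp C * Real.exp (h * n)) = 1 := by
      rw [← Real.exp_add, ← Real.exp_add, ← Real.exp_zero]; congr 1; ring
    calc (F.card : ℝ)
        = F.card * (c * Real.exp (-(h * n + C))) * (Real.exp C / c * Real.exp (h * n)) := by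
          field_simp
          linear_combination (-F.card) * h3
      _ ≤ 1 * (Real.exp C / c * Real.exp ((h + η) * n)) := by
          gcongr
          linarith
      _ = _ := one_mul _
  · obtain ⟨h', h1, h2⟩ := EReal.lt_iff_exists_real_btwn.1 hlt
    have h3 : 0 < (h - h') / 2 := half_pos (sub_pos.2 (EReal.coe_lt_coe_iff.1 h2))
    obtain ⟨C₁, hC₁⟩ := (hC Y T hT h').1 h1.le ε hε _ h3
    refine not_bdd h3 (K := C₁ * C₀ * Real.exp C) fun n => ?_
    obtain ⟨F, hF, hsp, -⟩ := hmax n ε hε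
    have h4 : (1 : ℝ) ≤ ∑ x ∈ F, μ.real (bB T n ε x) := by
      rw [← probReal_univ (μ := μ)]
      refine le_trans (measureReal_mono (fun y _ => ?_) (measure_ne_top _ _))
        (measureReal_biUnion_finset_le F _)
      obtain ⟨x, hx, hy⟩ := hsp y
      exact mem_iUnion₂.2 ⟨x, hx, hy⟩
    have h5 : (1 : ℝ) ≤ F.card * (C₀ * Real.exp (C - h * n)) := by
      refine h4.trans ?_
      rw [← nsmul_eq_mul]
      refine Finset.sum_le_card_nsmul _ _ _ fun x _ => (hup x n).trans ?_
      gcongr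
      linarith [(abs_le.1 (hb x n)).1]
    have h6 : Real.exp ((h - h') / 2 * n) * Real.exp ((h' + (h - h') / 2) * n) *
        Real.exp (C - h * n) = Real.exp C := by
      rw [← Real.exp_add, ← Real.exp_add]; congr 1; ring
    calc (h - h') / 2 * n ≤ Real.exp ((h - h') / 2 * n) * 1 := by
          linarith [Real.add_one_le_exp ((h - h') / 2 * n)]
      _ ≤ Real.exp ((h - h') / 2 * n) * (C₁ * Real.exp ((h' + (h - h') / 2) * n) *
          (C₀ * Real.exp (C - h * n))) := by
          gcongr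
          exact h5.trans (by gcongr; exact hC₁ n F hF)
      _ = _ := by rw [← h6]; ring

end Crest.Agent.N221.En
end
end

-- ▼ part N221/En/G1
section

/-!
# Row 221, abstract ergodic layer: the leaf G1 (helper3)

Gluing turns the subexponential error in the growth of separated sets into a constant.
-/

set_option autoImplicit false

open MeasureTheory Set Filter Topology

noncomputable section

namespace Crest.Agent.N221.En

namespace G1

variable {Y : Type} [MetricSpace Y] {T : Y → Y}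

theorem bB_mono {n : ℕ} {ε ε' : ℝ} (h : ε ≤ ε') (z : Y) : bB T n ε z ⊆ bB T n ε' z :=
  fun _ hy i hi => (hy i hi).trans_le h

theorem bB_symm {n : ℕ} {ε : ℝ} {x y : Y} (h : y ∈ bB T n ε x) : x ∈ bB T n ε y :=
  fun i hi => dist_comm (T^[i] y) _ ▸ h i hi

theorem bB_tri {n : ℕ} {ε ε' : ℝ} {x y z : Y} (h : y ∈ bB T n ε x) (h' : z ∈ bB T n ε' y) :
    z ∈ bB T n (ε + ε') x := fun i hi => by
  have := dist_triangle (T^[i] z) (T^[i] y) (T^[i] x)
  have := h i hi
  have := h' i hi
  linarith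

variable [MeasurableSpace Y] [BorelSpace Y] {μ : Measure Y} [IsProbabilityMeasure μ] {f : Y → ℝ}

/-- separated points of one ball are boundedly many -/
theorem local_bound (ho : ∀ n ε z, IsOpen (bB T n ε z)) {ε₀ C₀ ε c : ℝ} (hC : 0 < C₀) (hc : 0 < c)
    (hε : ε ≤ ε₀ / 4)
    (hU : ∀ (z : Y) (n : ℕ), μ.real (bB T n ε₀ z) ≤ C₀ * Real.exp (-birkhoffSum T f n z))
    (hL : ∀ (z : Y) (n : ℕ), c * Real.exp (-birkhoffSum T f n z) ≤ μ.real (bB T n (ε / 2) z))
    (hε₀ : 0 < ε₀) {n : ℕ} {H : Finset Y} (hH : Sep T n ε H) {x : Y}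
    (hx : ∀ y ∈ H, y ∈ bB T n (ε₀ / 4) x) : (H.card : ℝ) ≤ C₀ / c := by
  rcases H.eq_empty_or_nonempty with rfl | hne
  · simpa using (div_pos hC hc).le
  obtain ⟨y₁, h1, hmax⟩ := H.exists_max_image (birkhoffSum T f n) hne
  have hd : (H : Set Y).PairwiseDisjoint fun y => bB T n (ε / 2) y := fun y hy y' hy' hne =>
    Set.disjoint_left.2 fun w hw hw' => hH y hy y' hy' hne (by
      have := bB_tri hw (bB_symm hw')
      rwa [add_halves] at this)
  have hsub : (⋃ y ∈ H, bB T n (ε / 2) y) ⊆ bB T n ε₀ y₁ := by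
    intro w hw
    simp only [mem_iUnion] at hw
    obtain ⟨y, hy, hw⟩ := hw
    exact bB_mono (by linarith) _ (bB_tri (bB_tri (bB_symm (hx y₁ h1)) (hx y hy)) hw)
  have key : (H.card : ℝ) * (c * Real.exp (-birkhoffSum T f n y₁)) ≤
      C₀ * Real.exp (-birkhoffSum T f n y₁) := by
    calc (H.card : ℝ) * (c * Real.exp (-birkhoffSum T f n y₁))
        = ∑ _y ∈ H, c * Real.exp (-birkhoffSum T f n y₁) := by simp
      _ ≤ ∑ y ∈ H, μ.real (bB T n (ε / 2) y) := Finset.sum_le_sum fun y hy => by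
          refine le_trans ?_ (hL y n)
          gcongr
          exact hmax y hy
      _ = μ.real (⋃ y ∈ H, bB T n (ε / 2) y) :=
          (measureReal_biUnion_finset hd (fun y _ => (ho _ _ _).measurableSet)).symm
      _ ≤ μ.real (bB T n ε₀ y₁) := measureReal_mono hsub
      _ ≤ _ := hU _ _
  rw [le_div_iff₀ hc]
  rw [← mul_assoc] at key
  exact le_of_mul_le_mul_right key (Real.exp_pos _)

/-- comparison of scales -/
theorem scale (ho : ∀ n ε z, IsOpen (bB T n ε z)) {ε₀ C₀ : ℝ} (hε₀ : 0 < ε₀) (hC : 0 < C₀)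
    (hU : ∀ (z : Y) (n : ℕ), μ.real (bB T n ε₀ z) ≤ C₀ * Real.exp (-birkhoffSum T f n z))
    (hL : DLow μ T f) {ε : ℝ} (hε : 0 < ε) : ∃ M > 0, ∀ (n : ℕ) (F H : Finset Y),
      (∀ y, ∃ x ∈ F, y ∈ bB T n (ε₀ / 4) x) → Sep T n ε H → (H.card : ℝ) ≤ M * F.card := by
  classical
  obtain ⟨c, hc, hL⟩ := hL (min ε (ε₀ / 4) / 2) (by positivity)
  refine ⟨C₀ / c, by positivity, fun n F H hF hH => ?_⟩
  have h1 : H ⊆ F.biUnion fun x => H.filter (· ∈ bB T n (ε₀ / 4) x) := fun y hy => by
    obtain ⟨x, hx, h⟩ := hF y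
    exact Finset.mem_biUnion.2 ⟨x, hx, Finset.mem_filter.2 ⟨hy, h⟩⟩
  calc (H.card : ℝ) ≤ ∑ x ∈ F, ((H.filter (· ∈ bB T n (ε₀ / 4) x)).card : ℝ) := by
        exact_mod_cast (Finset.card_le_card h1).trans Finset.card_biUnion_le
    _ ≤ ∑ _x ∈ F, C₀ / c := Finset.sum_le_sum fun x _ =>
        local_bound ho hC hc (min_le_right _ _) hU hL hε₀
          (fun y hy y' hy' hne h => hH y (Finset.mem_filter.1 hy).1 y' (Finset.mem_filter.1 hy').1
            hne (bB_mono (min_le_left _ _) _ h)) fun y hy => (Finset.mem_filter.1 hy).2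
    _ = _ := by simp [mul_comm]

/-- supermultiplicativity removes the subexponential error -/
theorem seq_bound {a : ℕ → ℝ} {c h : ℝ} {k : ℕ} (hc : 0 < c) (h0 : ∀ n, 0 ≤ a n)
    (hm : ∀ n m, c * a n * a m ≤ a (n + m + k))
    (hs : ∀ η > 0, ∃ C : ℝ, ∀ n : ℕ, a n ≤ C * Real.exp ((h + η) * n)) (n : ℕ) :
    c * a n ≤ Real.exp (h * (n + k)) := by
  have it : ∀ j : ℕ, c ^ j * a n ^ (j + 1) ≤ a ((j + 1) * n + j * k) := fun j => by
    induction j with
    | zero => simp
    | succ j ih =>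
      rw [show (j + 1 + 1) * n + (j + 1) * k = (j + 1) * n + j * k + n + k by ring]
      refine le_trans ?_ (hm _ _)
      calc c ^ (j + 1) * a n ^ (j + 1 + 1) = c * (c ^ j * a n ^ (j + 1)) * a n := by ring
        _ ≤ _ := by gcongr; exact h0 n
  have h1 : ∀ η > 0, c * a n ≤ Real.exp ((h + η) * (n + k)) := fun η hη => by
    obtain ⟨C, hC⟩ := hs η hη
    by_contra hlt
    have hE := Real.exp_pos ((h + η) * (n + k))
    have hr : 1 < c * a n / Real.exp ((h + η) * (n + k)) := (one_lt_div hE).2 (not_le.1 hlt)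
    obtain ⟨j, hj⟩ := pow_unbounded_of_one_lt (c * C * Real.exp (-((h + η) * k))) hr
    refine absurd (hj.trans_le (pow_le_pow_right₀ hr.le (Nat.le_succ j))) (not_lt.2 ?_)
    rw [div_pow, div_le_iff₀ (pow_pos hE _), ← Real.exp_nat_mul, mul_assoc (c * C), ← Real.exp_add]
    calc (c * a n) ^ (j + 1) = c * (c ^ j * a n ^ (j + 1)) := by ring
      _ ≤ c * (C * Real.exp ((h + η) * ((j + 1) * n + j * k : ℕ))) :=
          mul_le_mul_of_nonneg_left ((it j).trans (hC _)) hc.le
      _ = _ := by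
          rw [mul_assoc c C]
          congr 3
          push_cast
          ring
  have h2 : Tendsto (fun η : ℝ => Real.exp ((h + η) * (n + k))) (𝓝[>] 0)
      (𝓝 (Real.exp ((h + 0) * (n + k)))) :=
    (Continuous.tendsto (by fun_prop) 0).mono_left nhdsWithin_le_nhds
  rw [add_zero] at h2
  exact ge_of_tendsto h2 (eventually_nhdsWithin_of_forall h1)

end G1

open G1 in
theorem sG1 (hS : StmtS0) : StmtG1 := by
  intro Y _ _ _ _ μ _ T f hT _ ⟨ε₀, hε₀, C₀, hC, hU⟩ hL hG h hs
  obtain ⟨ho, -, -, hF⟩ := hS Y T hT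
  choose F h1 h2 h3 using fun n => hF n (ε₀ / 4) (by positivity)
  obtain ⟨ε', hε', k, c, hc, hG⟩ := hG (ε₀ / 4) (by positivity)
  obtain ⟨M, hM, hM'⟩ := scale ho hε₀ hC hU hL hε'
  have key := seq_bound (a := fun n => ((F n).card : ℝ)) (c := c / M) (h := h) (k := k)
    (by positivity) (fun n => by positivity) (fun n m => by
      obtain ⟨H, a1, a2⟩ := hG n m _ _ (h1 n) (h1 m)
      rw [div_mul_eq_mul_div, div_mul_eq_mul_div, div_le_iff₀' hM]
      exact a2.trans (hM' _ _ _ (h2 _) a1)) fun η hη =>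
      (hs _ (by positivity) η hη).imp fun C hC n => hC n _ (h1 n)
  intro ε hε
  obtain ⟨N, hN, hN'⟩ := scale ho hε₀ hC hU hL hε
  refine ⟨N * (Real.exp (h * k) / (c / M)), fun n G hG => (hN' n _ _ (h2 n) hG).trans ?_⟩
  rw [mul_assoc]
  gcongr
  rw [div_mul_eq_mul_div, le_div_iff₀' (by positivity), ← Real.exp_add]
  refine (key n).trans_eq ?_
  congr 1
  ring

end Crest.Agent.N221.En
end
end

-- ▼ part N221/En/G2
section

/-! # Row 221, abstract ergodic layer: leaf G2 (rigidity step) (helper33) -/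

set_option autoImplicit false

open MeasureTheory Set Filter Topology
open scoped ENNReal

noncomputable section

namespace Crest.Agent.N221.En

namespace G2

variable {Y : Type} [MetricSpace Y]

/-- Any two points of `A` are `(p, e)`-close. -/
def Small (T : Y → Y) (e : ℝ) (p : ℕ) (A : Set Y) : Prop := ∀ x ∈ A, ∀ y ∈ A, y ∈ bB T p e x

theorem Small.inter {T : Y → Y} {ε : ℝ} {p : ℕ} {A : Set Y} (hA : Small T (2 * ε) p A) (ℓ : ℕ)
    (x : Y) : Small T (2 * ε) (p + ℓ) (A ∩ T^[p] ⁻¹' bB T ℓ ε x) := by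
  rintro a ⟨ha, ha'⟩ b ⟨hb, hb'⟩ i hi
  by_cases hip : i < p
  · exact hA a ha b hb i hip
  · obtain ⟨j, rfl⟩ : ∃ j, i = j + p := ⟨i - p, by omega⟩
    have hj : j < ℓ := by omega
    have h1 := ha' j hj
    have h2 := hb' j hj
    rw [Function.iterate_add_apply, Function.iterate_add_apply]
    calc dist (T^[j] (T^[p] b)) (T^[j] (T^[p] a))
        ≤ dist (T^[j] (T^[p] b)) (T^[j] x) + dist (T^[j] (T^[p] a)) (T^[j] x) :=
          dist_triangle_right _ _ _
      _ < 2 * ε := by linarith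

variable [MeasurableSpace Y]

theorem small_int (μ : Measure Y) [IsFiniteMeasure μ] {T : Y → Y} {f : Y → ℝ} {e C : ℝ}
    (hC : 0 < C) (hup : ∀ z n, μ.real (bB T n e z) ≤ C * Real.exp (-birkhoffSum T f n z))
    {p : ℕ} {A : Set Y} (hAm : MeasurableSet A) (hA : Small T e p A) :
    ∫⁻ y in A, ENNReal.ofReal (Real.exp (birkhoffSum T f p y)) ∂μ ≤ ENNReal.ofReal C := by
  by_cases h0 : μ A = 0
  · rw [setLIntegral_measure_zero _ _ h0]
    exact zero_le
  have hpos : 0 < μ.real A := ENNReal.toReal_pos h0 (measure_ne_top μ A)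
  have hb : ∀ x ∈ A, ENNReal.ofReal (Real.exp (birkhoffSum T f p x)) ≤
      ENNReal.ofReal (C / μ.real A) := by
    intro x hx
    refine ENNReal.ofReal_le_ofReal ?_
    have h1 : μ.real A ≤ C * Real.exp (-birkhoffSum T f p x) :=
      (measureReal_mono (fun y hy => hA x hx y hy)).trans (hup x p)
    rw [le_div_iff₀ hpos]
    have h2 : Real.exp (birkhoffSum T f p x) * Real.exp (-birkhoffSum T f p x) = 1 := by
      rw [← Real.exp_add]; simp
    calc Real.exp (birkhoffSum T f p x) * μ.real A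
        ≤ Real.exp (birkhoffSum T f p x) * (C * Real.exp (-birkhoffSum T f p x)) := by gcongr
      _ = C * (Real.exp (birkhoffSum T f p x) * Real.exp (-birkhoffSum T f p x)) := by ring
      _ = C := by rw [h2, mul_one]
  calc ∫⁻ y in A, ENNReal.ofReal (Real.exp (birkhoffSum T f p y)) ∂μ
      ≤ ∫⁻ _ in A, ENNReal.ofReal (C / μ.real A) ∂μ := setLIntegral_mono' hAm hb
    _ = ENNReal.ofReal (C / μ.real A) * ENNReal.ofReal (μ.real A) := by
        rw [setLIntegral_const, ofReal_measureReal]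
    _ = ENNReal.ofReal C := by
        rw [← ENNReal.ofReal_mul (by positivity), div_mul_cancel₀ _ hpos.ne']

omit [MetricSpace Y] in
/-- Covering a gap by a spanning set. -/
theorem gap (μ : Measure Y) {A : Set Y} {B : Y → Set Y} (F : Finset Y)
    (hF : ∀ y ∈ A, ∃ x ∈ F, y ∈ B x) (g : Y → ℝ≥0∞) {b N : ℝ} (hb : 0 ≤ b) (hN : (F.card : ℝ) ≤ N)
    (hg : ∀ x, ∫⁻ y in A ∩ B x, g y ∂μ ≤ ENNReal.ofReal b) :
    ∫⁻ y in A, g y ∂μ ≤ ENNReal.ofReal (N * b) := by
  have hsub : A ⊆ ⋃ x : F, A ∩ B x := by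
    intro y hy
    obtain ⟨x, hx, hyx⟩ := hF y hy
    exact mem_iUnion.2 ⟨⟨x, hx⟩, hy, hyx⟩
  calc ∫⁻ y in A, g y ∂μ ≤ ∫⁻ y in ⋃ x : F, A ∩ B x, g y ∂μ := lintegral_mono_set hsub
    _ ≤ ∑' x : F, ∫⁻ y in A ∩ B x, g y ∂μ := lintegral_iUnion_le _ _
    _ ≤ ∑' _ : F, ENNReal.ofReal b := ENNReal.tsum_le_tsum fun x => hg x
    _ = ENNReal.ofReal (F.card * b) := by
        rw [tsum_fintype, Finset.sum_const, Finset.card_univ, Fintype.card_coe, nsmul_eq_mul,
          ENNReal.ofReal_mul (by positivity), ENNReal.ofReal_natCast]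
    _ ≤ ENNReal.ofReal (N * b) := ENNReal.ofReal_le_ofReal (by gcongr)

/-- The weight `2 ^ (number of visits to D along T^[m])`. -/
def W (T : Y → Y) (m : ℕ) (D : Set Y) (J : ℕ) (y : Y) : ℝ≥0∞ :=
  ENNReal.ofReal (Real.exp (Real.log 2 * birkhoffSum T^[m] (D.indicator 1) J y))

omit [MetricSpace Y] [MeasurableSpace Y] in
theorem W_succ (T : Y → Y) (m : ℕ) (D : Set Y) (J : ℕ) (y : Y) :
    W T m D (J + 1) y = W T m D J (T^[m] y) + D.indicator (fun _ => W T m D J (T^[m] y)) y := by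
  unfold W
  rw [birkhoffSum_succ']
  by_cases hy : y ∈ D
  · rw [indicator_of_mem hy, indicator_of_mem hy, ← ENNReal.ofReal_add (by positivity)
      (by positivity), mul_add, Real.exp_add, Pi.one_apply, mul_one,
      Real.exp_log (by norm_num), two_mul]
  · rw [indicator_of_notMem hy, indicator_of_notMem hy, zero_add, add_zero]

omit [MetricSpace Y] in
theorem meas_bS {T : Y → Y} (hT : Measurable T) {g : Y → ℝ} (hg : Measurable g) (n : ℕ) :
    Measurable (birkhoffSum T g n) := by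
  unfold birkhoffSum
  exact Finset.measurable_sum _ fun i _ => hg.comp (hT.iterate i)

omit [MetricSpace Y] in
theorem int_bS {μ : Measure Y} {T : Y → Y} (hT : MeasurePreserving T μ μ) {g : Y → ℝ}
    (hg : Integrable g μ) (n : ℕ) :
    Integrable (birkhoffSum T g n) μ ∧ ∫ y, birkhoffSum T g n y ∂μ = n * ∫ y, g y ∂μ := by
  have h1 : ∀ i : ℕ, Integrable (fun y => g (T^[i] y)) μ := fun i =>
    ((hT.iterate i).integrable_comp hg.aestronglyMeasurable).2 hg
  have h2 : ∀ i : ℕ, ∫ y, g (T^[i] y) ∂μ = ∫ y, g y ∂μ := fun i => by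
    have h := integral_map (μ := μ) (hT.iterate i).measurable.aemeasurable (f := g)
      (by rw [(hT.iterate i).map_eq]; exact hg.aestronglyMeasurable)
    rw [(hT.iterate i).map_eq] at h
    exact h.symm
  unfold birkhoffSum
  refine ⟨integrable_finsetSum _ fun i _ => h1 i, ?_⟩
  rw [integral_finsetSum _ fun i _ => h1 i]
  simp [h2]

omit [MetricSpace Y] in
theorem meas_W {T : Y → Y} (hT : Measurable T) (m : ℕ) {D : Set Y} (hD : MeasurableSet D) (J : ℕ) :
    Measurable (W T m D J) := by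
  unfold W
  have := meas_bS (hT.iterate m) (g := D.indicator 1) (measurable_one.indicator hD) J
  fun_prop

theorem main_ind (μ : Measure Y) [IsFiniteMeasure μ] {T : Y → Y} {f : Y → ℝ} {ε C₀ C₁ h : ℝ}
    (hT : Measurable T) (hf : Measurable f) (hC₀ : 0 < C₀) (hC₁ : 0 ≤ C₁)
    (hup : ∀ z n, μ.real (bB T n (2 * ε) z) ≤ C₀ * Real.exp (-birkhoffSum T f n z))
    (hBm : ∀ n z, MeasurableSet (bB T n ε z))
    (hspan : ∀ ℓ : ℕ, ∃ F : Finset Y, (F.card : ℝ) ≤ C₁ * Real.exp (h * ℓ) ∧
      ∀ y, ∃ x ∈ F, y ∈ bB T ℓ ε x) (m : ℕ) (z : Y) (J : ℕ) :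
    ∀ (p ℓ : ℕ) (A : Set Y), MeasurableSet A → Small T (2 * ε) p A →
      ∫⁻ y in A, ENNReal.ofReal (Real.exp (birkhoffSum T f (p + ℓ + J * m) y)) *
        W T m (bB T m ε z) J (T^[p + ℓ] y) ∂μ ≤
      ENNReal.ofReal (C₀ * C₁ * Real.exp (h * (ℓ + J * m)) *
        (1 + C₁ * Real.exp (-(h * m))) ^ J) := by
  induction J with
  | zero =>
    intro p ℓ A hAm hA
    obtain ⟨F, hFc, hF⟩ := hspan ℓ
    have := gap μ (A := A) (B := fun x => T^[p] ⁻¹' bB T ℓ ε x) F (fun y _ => hF _)
      (fun y => ENNReal.ofReal (Real.exp (birkhoffSum T f (p + ℓ) y))) hC₀.le hFc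
      (fun x => small_int μ hC₀ hup (hAm.inter ((hT.iterate p) (hBm ℓ x))) (hA.inter ℓ x))
    simp only [W, birkhoffSum_zero, mul_zero, Real.exp_zero, ENNReal.ofReal_one, mul_one,
      zero_mul, add_zero, Nat.cast_zero, pow_zero]
    refine this.trans (le_of_eq ?_)
    congr 1
    ring
  | succ J ih =>
    intro p ℓ A hAm hA
    set D := bB T m ε z with hD
    set q := C₁ * Real.exp (-(h * m)) with hq
    have hq0 : 0 ≤ q := by positivity
    set G : Y → ℝ≥0∞ := fun y => ENNReal.ofReal (Real.exp (birkhoffSum T f (p + ℓ + (J + 1) * m) y)) *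
      W T m D J (T^[p + ℓ + m] y) with hG
    have hGm : Measurable G := by
      have h1 := meas_bS hT hf (p + ℓ + (J + 1) * m)
      have h2 := (meas_W hT m (hBm m z) J).comp (hT.iterate (p + ℓ + m))
      exact (ENNReal.measurable_ofReal.comp (Real.measurable_exp.comp h1)).mul h2
    have hDm : MeasurableSet (T^[p + ℓ] ⁻¹' D) := (hT.iterate (p + ℓ)) (hBm m z)
    have hsplit : ∀ y, ENNReal.ofReal (Real.exp (birkhoffSum T f (p + ℓ + (J + 1) * m) y)) *
        W T m D (J + 1) (T^[p + ℓ] y) = G y + (T^[p + ℓ] ⁻¹' D).indicator G y := by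
      intro y
      have hit : T^[m] (T^[p + ℓ] y) = T^[p + ℓ + m] y := by
        rw [← Function.iterate_add_apply, add_comm m]
      rw [W_succ, mul_add, hit]
      congr 1
      by_cases hy : T^[p + ℓ] y ∈ D
      · rw [indicator_of_mem hy, indicator_of_mem (show y ∈ T^[p + ℓ] ⁻¹' D from hy)]
      · rw [indicator_of_notMem hy, indicator_of_notMem (show y ∉ T^[p + ℓ] ⁻¹' D from hy),
          mul_zero]
    simp only [hsplit]
    rw [lintegral_add_left hGm, setLIntegral_indicator hDm]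
    have h1 : ∫⁻ y in A, G y ∂μ ≤
        ENNReal.ofReal (C₀ * C₁ * Real.exp (h * (ℓ + (J + 1 : ℕ) * m)) * (1 + q) ^ J) := by
      have := ih p (ℓ + m) A hAm hA
      have e1 : p + (ℓ + m) + J * m = p + ℓ + (J + 1) * m := by ring
      have e2 : p + (ℓ + m) = p + ℓ + m := by ring
      have e3 : h * (((ℓ + m : ℕ) : ℝ) + J * m) = h * (ℓ + (J + 1 : ℕ) * m) := by
        push_cast; ring
      rw [e1, e2, e3] at this
      exact this
    have h2 : ∫⁻ y in T^[p + ℓ] ⁻¹' D ∩ A, G y ∂μ ≤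
        ENNReal.ofReal (C₀ * C₁ * Real.exp (h * (ℓ + (J + 1 : ℕ) * m)) * (1 + q) ^ J * q) := by
      obtain ⟨F, hFc, hF⟩ := hspan ℓ
      have := gap μ (A := T^[p + ℓ] ⁻¹' D ∩ A) (B := fun x => T^[p] ⁻¹' bB T ℓ ε x) F
        (fun y _ => hF _) G
        (b := C₀ * C₁ * Real.exp (h * ((0 : ℕ) + J * m)) * (1 + q) ^ J) (by positivity) hFc
        (fun x => by
          have hs := (hA.inter ℓ x).inter m z
          have hm : MeasurableSet (A ∩ T^[p] ⁻¹' bB T ℓ ε x ∩ T^[p + ℓ] ⁻¹' bB T m ε z) :=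
            (hAm.inter ((hT.iterate p) (hBm ℓ x))).inter hDm
          have := ih (p + ℓ + m) 0 _ hm hs
          have e1 : p + ℓ + m + 0 + J * m = p + ℓ + (J + 1) * m := by ring
          have e2 : T^[p + ℓ] ⁻¹' D ∩ A ∩ T^[p] ⁻¹' bB T ℓ ε x =
              A ∩ T^[p] ⁻¹' bB T ℓ ε x ∩ T^[p + ℓ] ⁻¹' bB T m ε z := by
            ext y; simp only [hD, mem_inter_iff]; tauto
          rw [e1, add_zero] at this
          rw [e2]
          exact this)
      refine this.trans (le_of_eq ?_)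
      congr 1
      have e : Real.exp (h * (ℓ + (J + 1 : ℕ) * m)) * Real.exp (-(h * m)) =
          Real.exp (h * ℓ) * Real.exp (h * ((0 : ℕ) + J * m)) := by
        rw [← Real.exp_add, ← Real.exp_add]
        congr 1
        push_cast
        ring
      calc C₁ * Real.exp (h * ℓ) * (C₀ * C₁ * Real.exp (h * ((0 : ℕ) + J * m)) * (1 + q) ^ J)
          = C₀ * C₁ * C₁ * (1 + q) ^ J *
            (Real.exp (h * ℓ) * Real.exp (h * ((0 : ℕ) + J * m))) := by ring
        _ = _ := by rw [← e, hq]; ring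
    refine (add_le_add h1 h2).trans (le_of_eq ?_)
    rw [← ENNReal.ofReal_add (by positivity) (by positivity)]
    congr 1
    ring

omit [MetricSpace Y] in
/-- Jensen for `exp`. -/
theorem jensen (μ : Measure Y) [IsProbabilityMeasure μ] {ψ : Y → ℝ} (hψ : Integrable ψ μ)
    {B : ℝ} (hB : 0 ≤ B) (hle : ∫⁻ y, ENNReal.ofReal (Real.exp (ψ y)) ∂μ ≤ ENNReal.ofReal B) :
    Real.exp (∫ y, ψ y ∂μ) ≤ B := by
  have hnn : 0 ≤ᵐ[μ] fun y => Real.exp (ψ y) := ae_of_all _ fun y => (Real.exp_pos _).le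
  have hint : Integrable (fun y => Real.exp (ψ y)) μ :=
    (lintegral_ofReal_ne_top_iff_integrable
      (Real.continuous_exp.comp_aestronglyMeasurable hψ.aestronglyMeasurable) hnn).1
      (ne_top_of_le_ne_top ENNReal.ofReal_ne_top hle)
  rw [← ofReal_integral_eq_lintegral_ofReal hint hnn, ENNReal.ofReal_le_ofReal_iff hB] at hle
  refine le_trans ?_ hle
  set c := ∫ y, ψ y ∂μ with hc
  have h1 : ∀ y, Real.exp c * (ψ y - c + 1) ≤ Real.exp (ψ y) := fun y => by
    have := Real.add_one_le_exp (ψ y - c)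
    calc Real.exp c * (ψ y - c + 1) ≤ Real.exp c * Real.exp (ψ y - c) := by gcongr
      _ = Real.exp (ψ y) := by rw [← Real.exp_add]; simp
  have h3 : Integrable (fun y => ψ y - c) μ := hψ.sub (integrable_const _)
  have h2 : Integrable (fun y => ψ y - c + 1) μ := h3.add (integrable_const _)
  calc Real.exp c = ∫ y, Real.exp c * (ψ y - c + 1) ∂μ := by
        rw [integral_const_mul, integral_add h3 (integrable_const _),
          integral_sub hψ (integrable_const _)]
        simp [hc]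
    _ ≤ _ := integral_mono (h2.const_mul _) hint h1

end G2

open G2 in
theorem sG2 (hS : StmtS0) : StmtG2 := by
  intro Y _ _ _ _ μ _ T f hTc hT hfc hUp hLow h hex hle
  obtain ⟨hopen, -, -, hmax⟩ := hS Y T hTc
  obtain ⟨ε₀, hε₀, C₀, hC₀, hup⟩ := hUp
  obtain ⟨ε, rfl⟩ : ∃ ε, ε₀ = 2 * ε := ⟨ε₀ / 2, by ring⟩
  have hε : 0 < ε := by linarith
  obtain ⟨C₁', hC₁'⟩ := hex ε hε
  set C₁ := max C₁' 1 with hC₁d
  have hC₁ : 0 < C₁ := lt_of_lt_of_le one_pos (le_max_right _ _)
  have hspan : ∀ ℓ : ℕ, ∃ F : Finset Y, (F.card : ℝ) ≤ C₁ * Real.exp (h * ℓ) ∧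
      ∀ y, ∃ x ∈ F, y ∈ bB T ℓ ε x := by
    intro ℓ
    obtain ⟨F, hF, hsp, -⟩ := hmax ℓ ε hε
    refine ⟨F, (hC₁' ℓ F hF).trans ?_, hsp⟩
    gcongr
    exact le_max_left _ _
  obtain ⟨c, hc, hlow⟩ := hLow ε hε
  have hBm : ∀ n z, MeasurableSet (bB T n ε z) := fun n z => (hopen n ε z).measurableSet
  have hfi : Integrable f μ := hfc.integrable_of_hasCompactSupport (HasCompactSupport.of_compactSpace f)
  have hl2 : 0 < Real.log 2 := Real.log_pos one_lt_two
  have key : ∀ (z : Y) (m : ℕ),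
      Real.log 2 * μ.real (bB T m ε z) ≤ C₁ * Real.exp (-(h * m)) := by
    intro z m
    set q := C₁ * Real.exp (-(h * m)) with hq
    have hq0 : 0 ≤ q := by positivity
    have hJ : ∀ J : ℕ, J * (Real.log 2 * μ.real (bB T m ε z) - q) ≤ Real.log (C₀ * C₁) := by
      intro J
      have h1 := main_ind μ hT.measurable hfc.measurable hC₀ hC₁.le hup hBm hspan m z J 0 0 univ
        MeasurableSet.univ (fun x _ y _ i hi => absurd hi (Nat.not_lt_zero i))
      have hDi : Integrable ((bB T m ε z).indicator (1 : Y → ℝ)) μ :=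
        (integrable_const (1 : ℝ)).indicator (hBm m z)
      obtain ⟨i1, e1⟩ := int_bS hT hfi (J * m)
      obtain ⟨i2, e2⟩ := int_bS (hT.iterate m) hDi J
      have h2 := jensen μ (ψ := fun y => birkhoffSum T f (J * m) y +
          Real.log 2 * birkhoffSum T^[m] ((bB T m ε z).indicator 1) J y)
        (i1.add (i2.const_mul _))
        (B := C₀ * C₁ * Real.exp (h * ((0 : ℕ) + J * m)) * (1 + q) ^ J) (by positivity) (by
          refine le_of_eq_of_le ?_ h1
          rw [Measure.restrict_univ]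
          refine lintegral_congr fun y => ?_
          simp only [W, zero_add, Function.iterate_zero, id_eq, add_zero]
          rw [Real.exp_add, ENNReal.ofReal_mul (Real.exp_pos _).le])
      rw [integral_add i1 (i2.const_mul _), integral_const_mul, e1, e2,
        integral_indicator_one (hBm m z)] at h2
      have h3 : (1 + q) ^ J ≤ Real.exp (J * q) := by
        rw [Real.exp_nat_mul]
        gcongr
        linarith [Real.add_one_le_exp q]
      have h4 : C₀ * C₁ * Real.exp (h * ((0 : ℕ) + J * m)) * (1 + q) ^ J ≤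
          Real.exp (Real.log (C₀ * C₁) + h * (J * m) + J * q) := by
        rw [Real.exp_add, Real.exp_add, Real.exp_log (by positivity)]
        simp only [Nat.cast_zero, zero_add]
        gcongr
      have h5 := Real.exp_le_exp.1 (h2.trans h4)
      have h6 : h * (J * m) ≤ ((J * m : ℕ) : ℝ) * ∫ y, f y ∂μ := by
        push_cast
        rw [mul_comm h]
        gcongr
      nlinarith
    by_contra hcon
    push Not at hcon
    obtain ⟨J, hJ'⟩ := exists_nat_gt (Real.log (C₀ * C₁) / (Real.log 2 * μ.real (bB T m ε z) - q))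
    rw [div_lt_iff₀ (by linarith)] at hJ'
    linarith [hJ J]
  refine ⟨Real.log (C₁ / (Real.log 2 * c)), fun z n => ?_⟩
  have h1 : Real.log 2 * (c * Real.exp (-birkhoffSum T f n z)) ≤ C₁ * Real.exp (-(h * n)) :=
    le_trans (by gcongr; exact hlow z n) (key z n)
  have h2 : Real.exp (h * n - birkhoffSum T f n z) ≤ C₁ / (Real.log 2 * c) := by
    rw [le_div_iff₀ (by positivity), sub_eq_add_neg, Real.exp_add]
    have h3 : Real.exp (h * n) * Real.exp (-(h * n)) = 1 := by rw [← Real.exp_add]; simp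
    calc Real.exp (h * n) * Real.exp (-birkhoffSum T f n z) * (Real.log 2 * c)
        = Real.exp (h * n) * (Real.log 2 * (c * Real.exp (-birkhoffSum T f n z))) := by ring
      _ ≤ Real.exp (h * n) * (C₁ * Real.exp (-(h * n))) := by gcongr
      _ = C₁ * (Real.exp (h * n) * Real.exp (-(h * n))) := by ring
      _ = C₁ := by rw [h3, mul_one]
  have h4 := (Real.le_log_iff_exp_le (by positivity)).2 h2
  linarith

end Crest.Agent.N221.En
end
end

-- ▼ part N221/En/G3
section

/-!
# Row 221, abstract ergodic layer: leaf G3 (a one-sided bound is two-sided)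
-/

set_option autoImplicit false

open MeasureTheory Set Filter Topology

noncomputable section

namespace Crest.Agent.N221.En

namespace G3

variable {Y : Type} [MetricSpace Y] [MeasurableSpace Y] {μ : Measure Y} {T : Y → Y}

theorem openPos {f : Y → ℝ} (h : DLow μ T f) : μ.IsOpenPosMeasure := by
  refine ⟨fun U hU ⟨z, hz⟩ h0 => ?_⟩
  obtain ⟨ε, hε, hb⟩ := Metric.isOpen_iff.1 hU z hz
  obtain ⟨c, hc, h1⟩ := h ε hε
  have h2 : μ (bB T 1 ε z) = 0 := measure_mono_null (fun y hy => hb (hy 0 one_pos)) h0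
  have h3 := h1 z 1
  rw [measureReal_def, h2, ENNReal.toReal_zero] at h3
  exact absurd h3 (not_le.2 (by positivity))

omit [MetricSpace Y] in
theorem int_comp (hT : MeasurePreserving T μ μ) {g : Y → ℝ} (hg : AEStronglyMeasurable g μ) :
    ∫ y, g (T y) ∂μ = ∫ y, g y ∂μ := by
  rw [← integral_map hT.measurable.aemeasurable (by rwa [hT.map_eq]), hT.map_eq]

end G3

open G3 in
theorem sG3 : StmtG3 := by
  intro Y _ _ _ _ μ _ T f hT hμ hf hL h C hh hC z n
  have := openPos hL
  have hS : ∀ m, Continuous (birkhoffSum T f m) := fun m =>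
    continuous_finsetSum _ fun i _ => hf.comp (hT.iterate i)
  have hfi : Integrable f μ := hf.integrable_of_hasCompactSupport (HasCompactSupport.of_compactSpace _)
  have hI : ∫ y, birkhoffSum T f n y ∂μ = n * ∫ y, f y ∂μ := by
    simp only [birkhoffSum]
    rw [integral_finsetSum (f := fun i y => f (T^[i] y)) _
      fun i _ => (hμ.iterate i).integrable_comp_of_integrable hfi,
      Finset.sum_congr rfl fun i _ => int_comp (hμ.iterate i) hfi.1]
    simp
  set b : Y → ℝ := fun y => ⨅ m : ℕ, (birkhoffSum T f m y - h * m) with hb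
  have hlo : ∀ y (m : ℕ), -C ≤ birkhoffSum T f m y - h * m := fun y m => by linarith [hC y m]
  have hbd : ∀ y, BddBelow (range fun m : ℕ => birkhoffSum T f m y - h * m) := fun y =>
    ⟨-C, forall_mem_range.2 (hlo y)⟩
  have b1 : ∀ y, -C ≤ b y := fun y => le_ciInf (hlo y)
  have b2 : ∀ y, b y ≤ 0 := fun y => by simpa using ciInf_le (hbd y) 0
  have bm : Measurable b := Measurable.iInf fun m => ((hS m).sub continuous_const).measurable
  have bi : Integrable b μ := Integrable.of_bound bm.aestronglyMeasurable C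
    (ae_of_all _ fun y => abs_le.2 ⟨b1 y, by linarith [b1 y, b2 y]⟩)
  have biT : Integrable (fun y => b (T^[n] y)) μ := (hμ.iterate n).integrable_comp_of_integrable bi
  have Si : Integrable (fun y => birkhoffSum T f n y - h * n) μ :=
    ((hS n).sub continuous_const).integrable_of_hasCompactSupport
      (HasCompactSupport.of_compactSpace _)
  have bd : Integrable (fun y => b (T^[n] y) - b y) μ := biT.sub bi
  have g0 : ∀ y, 0 ≤ birkhoffSum T f n y - h * n + (b (T^[n] y) - b y) := fun y => by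
    have : b y - (birkhoffSum T f n y - h * n) ≤ b (T^[n] y) := le_ciInf fun m => by
      have := ciInf_le (hbd y) (n + m)
      rw [birkhoffSum_add] at this
      push_cast at this
      simp only [hb]
      linarith
    linarith
  have gi : ∫ y, (birkhoffSum T f n y - h * n + (b (T^[n] y) - b y)) ∂μ = 0 := by
    refine le_antisymm ?_ (integral_nonneg g0)
    rw [integral_add Si bd, integral_sub biT bi, int_comp (hμ.iterate n) bi.1, sub_self,
      integral_sub ((hS n).integrable_of_hasCompactSupport (HasCompactSupport.of_compactSpace _))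
        (integrable_const _), hI]
    simp only [integral_const, probReal_univ, one_smul]
    nlinarith [mul_le_mul_of_nonneg_left hh (Nat.cast_nonneg (α := ℝ) n)]
  have ae : ∀ᵐ y ∂μ, birkhoffSum T f n y - h * n ≤ C := by
    filter_upwards [(integral_eq_zero_iff_of_nonneg g0 (Si.add bd)).1 gi] with y hy
    simp only [Pi.zero_apply] at hy
    linarith [b1 (T^[n] y), b2 y]
  have cl : IsClosed {y | birkhoffSum T f n y - h * n ≤ C} :=
    isClosed_le ((hS n).sub continuous_const) continuous_const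
  exact abs_le.2 ⟨hlo z n, cl.closure_subset (Measure.dense_of_ae ae z)⟩

end Crest.Agent.N221.En
end
end

-- ▼ part N221/En/F1
section

/-!
# Row 221, ergodic layer, leaf F1: transitivity from recurrence (helper64)
-/

set_option autoImplicit false

open MeasureTheory Set Filter Topology

noncomputable section

namespace Crest.Agent.N221.En

namespace F1

variable {Y : Type} [MetricSpace Y]

/-- `x ⇝ y` -/
def Rel (φ : Flow ℝ Y) (x y : Y) : Prop :=
  ∀ ε > 0, ∃ (z : Y) (t : ℝ), 0 ≤ t ∧ dist z x < ε ∧ dist (φ t z) y < ε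

lemma small [CompactSpace Y] (φ : Flow ℝ Y) {ε : ℝ} (hε : 0 < ε) :
    ∃ θ > 0, ∀ s : ℝ, |s| ≤ θ → ∀ p, dist (φ s p) p < ε := by
  have hc : Continuous fun z : ℝ × Y => dist (φ z.1 z.2) z.2 :=
    (φ.continuous continuous_fst continuous_snd).dist continuous_snd
  have h : ∀ᶠ s in 𝓝 (0 : ℝ), ∀ p ∈ (univ : Set Y), dist (φ s p) p < ε :=
    isCompact_univ.eventually_forall_of_forall_eventually fun p _ =>
      hc.continuousAt.eventually_lt continuousAt_const (by simpa using hε)
  obtain ⟨θ, hθ, h⟩ := Metric.eventually_nhds_iff.1 h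
  exact ⟨θ / 2, by positivity, fun s hs p =>
    h (by rw [Real.dist_eq, sub_zero]; linarith) p (mem_univ p)⟩

lemma Rel.refl (φ : Flow ℝ Y) (x : Y) : Rel φ x x := fun ε hε =>
  ⟨x, 0, le_rfl, by simpa using hε, by simpa using hε⟩

lemma Rel.of_approx {φ : Flow ℝ Y} {x y : Y}
    (h : ∀ ε > 0, ∃ x' y', dist x' x < ε ∧ dist y' y < ε ∧ Rel φ x' y') : Rel φ x y := by
  intro ε hε
  obtain ⟨x', y', h1, h2, h3⟩ := h (ε / 2) (by positivity)
  obtain ⟨z, t, ht, h4, h5⟩ := h3 (ε / 2) (by positivity)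
  exact ⟨z, t, ht, by linarith [dist_triangle z x' x], by linarith [dist_triangle (φ t z) y' y]⟩

lemma Rel.trans [CompactSpace Y] {φ : Flow ℝ Y} {σ : ℝ → Y → ℝ} (hL : LPS univ φ σ) {x y u : Y}
    (h1 : Rel φ x y) (h2 : Rel φ y u) : Rel φ x u := by
  intro ε hε
  obtain ⟨θ, hθ, hs⟩ := small φ (show 0 < ε / 3 by positivity)
  obtain ⟨η, hη, hw⟩ := hL (min θ (ε / 3)) (by positivity)
  obtain ⟨z₁, t₁, ht₁, a1, a2⟩ := h1 (min (ε / 3) (η / 2)) (by positivity)
  obtain ⟨z₂, t₂, ht₂, b1, b2⟩ := h2 (min (ε / 3) (η / 2)) (by positivity)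
  rw [lt_min_iff] at a1 a2 b1 b2
  obtain ⟨w, -, r, r', hr, hr', hf, hb, -⟩ := hw z₂ (mem_univ _) (φ t₁ z₁) (mem_univ _)
    (by linarith [dist_triangle_right z₂ (φ t₁ z₁) y])
  have f1 := (hf t₂ ht₂).1
  have f2 := (hb (-t₁) (by linarith)).1
  rw [add_comm, φ.map_add] at f1
  rw [← φ.map_add, show -t₁ + r' + t₁ = r' by ring] at f2
  have g1 := hs r (hr.trans (min_le_left _ _)) (φ t₂ z₂)
  have g2 := hs r' (hr'.trans (min_le_left _ _)) z₁
  have m := min_le_right θ (ε / 3)
  refine ⟨φ (-t₁) w, t₂ + t₁, by linarith, ?_, ?_⟩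
  · linarith [dist_triangle4 (φ (-t₁) w) (φ r' z₁) z₁ x]
  · rw [← φ.map_add, show t₂ + t₁ + -t₁ = t₂ by ring]
    linarith [dist_triangle4 (φ t₂ w) (φ r (φ t₂ z₂)) (φ t₂ z₂) u]

lemma iter (φ : Flow ℝ Y) (c : ℝ) (n : ℕ) (x : Y) : (φ c)^[n] x = φ (c * n) x := by
  induction n with
  | zero => simp
  | succ n ih =>
    rw [Function.iterate_succ_apply', ih, ← φ.map_add]
    congr 1
    push_cast
    ring

/-- recurrent points are dense -/
lemma dense_rec [CompactSpace Y] [MeasurableSpace Y] [BorelSpace Y] (μ : Measure Y)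
    [IsProbabilityMeasure μ] [μ.IsOpenPosMeasure] (φ : Flow ℝ Y) (c : ℝ)
    (h : MeasurePreserving (φ c) μ μ) :
    Dense {x : Y | ∀ ε > 0, ∃ᶠ n : ℕ in atTop, dist (φ (c * n) x) x < ε} := by
  refine Measure.dense_of_ae (μ := μ) ?_
  filter_upwards [h.conservative.ae_frequently_mem_of_mem_nhds] with x hx ε hε
  refine (hx _ (Metric.ball_mem_nhds x hε)).mono fun n hn => ?_
  rwa [iter] at hn

lemma near {φ : Flow ℝ Y} {x y w : Y} {r r' : ℝ}
    (hx : ∀ ε > 0, ∃ᶠ n : ℕ in atTop, dist (φ (1 * n) x) x < ε)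
    (hy : ∀ ε > 0, ∃ᶠ n : ℕ in atTop, dist (φ (-1 * n) y) y < ε)
    (hf : Tendsto (fun t => dist (φ t w) (φ (t + r) x)) atTop (𝓝 0))
    (hb : Tendsto (fun t => dist (φ t w) (φ (t + r') y)) atBot (𝓝 0)) : Rel φ y x := by
  intro ε hε
  have e2 : 0 < ε / 2 := by positivity
  have t1 : Tendsto (fun n : ℕ => 1 * (n : ℝ) - r) atTop atTop := by
    simpa [sub_eq_add_neg] using tendsto_atTop_add_const_right atTop (-r) tendsto_natCast_atTop_atTop
  have t2 : Tendsto (fun n : ℕ => -1 * (n : ℝ) - r') atTop atBot := by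
    simpa [sub_eq_add_neg] using tendsto_atBot_add_const_right atTop (-r')
      (tendsto_neg_atTop_atBot.comp (tendsto_natCast_atTop_atTop (R := ℝ)))
  obtain ⟨n, n1, n2, n3⟩ := ((hx _ e2).and_eventually
    (((hf.comp t1).eventually_lt_const e2).and (t1.eventually_ge_atTop 0))).exists
  obtain ⟨m, m1, m2, m3⟩ := ((hy _ e2).and_eventually
    (((hb.comp t2).eventually_lt_const e2).and (t2.eventually_le_atBot 0))).exists
  simp only [Function.comp, sub_add_cancel] at n2 m2
  refine ⟨φ (-1 * m - r') w, (1 * n - r) - (-1 * m - r'), by linarith, ?_, ?_⟩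
  · linarith [dist_triangle (φ (-1 * m - r') w) (φ (-1 * m) y) y]
  · rw [← φ.map_add, sub_add_cancel]
    linarith [dist_triangle (φ (1 * n - r) w) (φ (1 * n) x) x]

lemma uniform [CompactSpace Y] {φ : Flow ℝ Y} (h : ∀ x y, Rel φ x y) : USpec φ := by
  intro ε hε
  let U : ℕ → Set (Y × Y) := fun n =>
    {p | ∃ (z : Y) (t : ℝ), 0 ≤ t ∧ t ≤ n ∧ dist z p.1 < ε ∧ dist (φ t z) p.2 < ε}
  have hU : ∀ n, IsOpen (U n) := fun n => by
    refine isOpen_iff_mem_nhds.2 fun p ⟨z, t, h0, h1, h2, h3⟩ => ?_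
    have c1 : Continuous fun q : Y × Y => dist z q.1 := by fun_prop
    have c2 : Continuous fun q : Y × Y => dist (φ t z) q.2 := by fun_prop
    filter_upwards [c1.continuousAt.eventually_lt continuousAt_const h2,
      c2.continuousAt.eventually_lt continuousAt_const h3] with q q1 q2
    exact ⟨z, t, h0, h1, q1, q2⟩
  have hm : Monotone U := fun n m hnm p ⟨z, t, h0, h1, h2⟩ =>
    ⟨z, t, h0, h1.trans (by exact_mod_cast hnm), h2⟩
  obtain ⟨n, hn⟩ := isCompact_univ.elim_directed_cover U hU (fun p _ => by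
    obtain ⟨z, t, h0, h1⟩ := h p.1 p.2 ε hε
    exact mem_iUnion.2 ⟨⌈t⌉₊, z, t, h0, Nat.le_ceil t, h1⟩) hm.directed_le
  exact ⟨n, fun x y => hn (mem_univ (x, y))⟩

end F1

open F1

theorem sF1 : StmtF1 := by
  intro Y _ _ _ _ _ μ _ _ φ σ hμ hL
  have hm : ∀ c : ℝ, Measurable (φ c) := fun c => (φ.continuous continuous_const continuous_id).measurable
  have hμ' : MeasurePreserving (φ (-1)) μ μ := by
    refine ⟨hm _, ?_⟩
    conv_lhs => rw [← hμ.map_eq]
    rw [Measure.map_map (hm _) (hm _), show φ (-1) ∘ φ 1 = id by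
      funext x; simp [← φ.map_add], Measure.map_id]
  have d1 := dense_rec μ φ 1 hμ
  have d2 := dense_rec μ φ (-1) hμ'
  obtain ⟨η, hη, hw⟩ := hL 1 one_pos
  have loc : ∀ x y, dist x y < η / 2 → Rel φ y x := fun x y hxy => by
    refine Rel.of_approx fun ε hε => ?_
    have e : 0 < min ε (η / 4) := by positivity
    obtain ⟨x', a1, a2⟩ := d1.exists_dist_lt x e
    obtain ⟨y', b1, b2⟩ := d2.exists_dist_lt y e
    rw [lt_min_iff, dist_comm] at a2 b2
    obtain ⟨w, -, r, r', -, -, -, -, hf, hb⟩ := hw x' (mem_univ _) y' (mem_univ _) (by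
      have := dist_triangle4 x' x y y'
      rw [dist_comm y y'] at this
      linarith [a2.2, b2.2])
    exact ⟨y', x', b2.1, a2.1, near a1 b1 hf hb⟩
  refine uniform fun x y => ?_
  have hc : IsClopen {y | Rel φ x y} := by
    constructor
    · refine isOpen_compl_iff.1 (Metric.isOpen_iff.2 fun p hp => ⟨η / 2, by positivity, fun q hq h => ?_⟩)
      exact hp (Rel.trans hL h (loc p q (by rwa [dist_comm])))
    · exact Metric.isOpen_iff.2 fun p hp => ⟨η / 2, by positivity, fun q hq =>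
        Rel.trans hL hp (loc q p hq)⟩
  have := hc.eq_univ ⟨x, Rel.refl φ x⟩
  exact (this ▸ mem_univ y : y ∈ {y | Rel φ x y})

end Crest.Agent.N221.En
end
end

-- ▼ part N221/En/F2
section

/-! # Row 221, ergodic layer, leaf F2: gluing -/

set_option autoImplicit false

open Set Filter Topology

noncomputable section

namespace Crest.Agent.N221.En

namespace F2

variable {Y : Type} [MetricSpace Y] (φ : Flow ℝ Y)

theorem iter (n : ℕ) (y : Y) : (φ 1)^[n] y = φ n y := by
  induction n with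
  | zero => simp
  | succ n ih => rw [Function.iterate_succ_apply', ih, ← φ.map_add]; congr 1; push_cast; ring

variable [CompactSpace Y]

theorem unif {ε : ℝ} (hε : 0 < ε) : ∃ δ > 0, ∀ s t : ℝ, |s| ≤ 1 → |t| ≤ 1 → |s - t| < δ →
    ∀ p q : Y, dist p q < δ → dist (φ s p) (φ t q) < ε := by
  obtain ⟨δ, hδ, h⟩ := Metric.uniformContinuousOn_iff.1
    (((isCompact_Icc (a := (-1 : ℝ)) (b := 1)).prod isCompact_univ).uniformContinuousOn_of_continuous
      φ.cont'.continuousOn) ε hε
  exact ⟨δ, hδ, fun s t hs ht hst p q hpq => h (s, p) ⟨abs_le.1 hs, trivial⟩ (t, q)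
    ⟨abs_le.1 ht, trivial⟩ (max_lt hst hpq)⟩

theorem small {ε : ℝ} (hε : 0 < ε) : ∃ θ > 0, ∀ s t : ℝ, |s - t| ≤ θ → ∀ p : Y,
    dist (φ s p) (φ t p) < ε := by
  obtain ⟨δ, hδ, h⟩ := unif φ hε
  refine ⟨min 1 (δ / 2), by positivity, fun s t hs p => ?_⟩
  have := h (s - t) 0 (hs.trans (min_le_left _ _)) (by simp)
    (by rw [sub_zero]; linarith [min_le_right 1 (δ / 2)]) (φ t p) (φ t p) (by simpa using hδ)
  rwa [← φ.map_add, sub_add_cancel, φ.map_zero_apply] at this

/-- local product structure without time shifts -/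
theorem lps {σ : ℝ → Y → ℝ} (h : LPS univ φ σ) {ε : ℝ} (hε : 0 < ε) : ∃ η > 0, ∀ x y : Y,
    dist x y < η → ∃ w, (∀ t, 0 ≤ t → dist (φ t w) (φ t x) < ε) ∧
      ∀ t, t ≤ 0 → dist (φ t w) (φ t y) < ε := by
  obtain ⟨θ, hθ, h1⟩ := small φ (half_pos hε)
  obtain ⟨η, hη, h2⟩ := h (min θ (ε / 2)) (by positivity)
  refine ⟨η, hη, fun x y hxy => ?_⟩
  obtain ⟨w, -, r, r', hr, hr', a, b, -⟩ := h2 x trivial y trivial hxy
  have k : ∀ (t r : ℝ) (x : Y), |r| ≤ min θ (ε / 2) → dist (φ t w) (φ (t + r) x) ≤ min θ (ε / 2) →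
      dist (φ t w) (φ t x) < ε := fun t r x h3 h4 => by
    have := h1 (t + r) t (by simpa using h3.trans (min_le_left _ _)) x
    linarith [dist_triangle (φ t w) (φ (t + r) x) (φ t x), min_le_right θ (ε / 2)]
  exact ⟨w, fun t ht => k t r x hr (a t ht).1, fun t ht => k t r' y hr' (b t ht).1⟩

theorem glue {σ : ℝ → Y → ℝ} (hU : USpec φ) (h : LPS univ φ σ) : FGlue φ := fun ε hε => by
  obtain ⟨η, hη, h1⟩ := lps φ h (half_pos hε)
  obtain ⟨η1, hη1, h2⟩ := lps φ h (ε := min (ε / 2) (η / 2)) (by positivity)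
  obtain ⟨R, h3⟩ := hU (min η1 (η / 2)) (by positivity)
  refine ⟨R, fun x y => ?_⟩
  obtain ⟨z, t, t0, tR, z1, z2⟩ := h3 x y
  obtain ⟨w1, a1, a2⟩ := h2 y (φ t z) (by rw [dist_comm]; exact z2.trans_le (min_le_left _ _))
  have a3 := a2 (-t) (by linarith)
  rw [← φ.map_add, neg_add_cancel, φ.map_zero_apply] at a3
  obtain ⟨w, b1, b2⟩ := h1 (φ (-t) w1) x (by
    linarith [dist_triangle (φ (-t) w1) z x, min_le_right (ε / 2) (η / 2), min_le_right η1 (η / 2)])
  refine ⟨w, t, t0, tR, fun s hs => by linarith [b2 s hs], fun u hu => ?_⟩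
  have b3 := b1 (t + u) (by linarith)
  rw [← φ.map_add, show t + u + -t = u by ring] at b3
  linarith [dist_triangle (φ (t + u) w) (φ u w1) (φ u y), a1 u hu, min_le_left (ε / 2) (η / 2)]

theorem dglue (h : FGlue φ) : DGlue (φ 1) := fun ε hε => by
  classical
  have e5 : 0 < ε / 5 := by positivity
  obtain ⟨R, hR⟩ := h _ e5
  obtain ⟨θ, hθ, h1⟩ := small φ e5
  obtain ⟨δ, hδ, h2⟩ := unif φ e5
  refine ⟨δ, hδ, ⌊R⌋₊ + 1, ((⌊R / θ⌋₊ + 1 : ℕ) : ℝ)⁻¹, by positivity, fun n m F G hF hG => ?_⟩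
  choose w t t0 tR a b using fun p : Y × Y => hR (φ n p.1) p.2
  obtain ⟨j, -, hj⟩ := Finset.exists_le_card_fiber_of_nsmul_le_card_of_maps_to (s := F ×ˢ G)
    (t := Finset.range (⌊R / θ⌋₊ + 1)) (f := fun p => ⌊t p / θ⌋₊)
    (b := ((⌊R / θ⌋₊ + 1 : ℕ) : ℝ)⁻¹ * F.card * G.card)
    (fun p _ => Finset.mem_range.2 (Nat.lt_succ_of_le (Nat.floor_mono (by gcongr; exact tR p))))
    (by simp) (by
      rw [Finset.card_range, Finset.card_product, nsmul_eq_mul, mul_assoc,
        mul_inv_cancel_left₀ (by positivity), Nat.cast_mul])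
  set S := (F ×ˢ G).filter fun p => ⌊t p / θ⌋₊ = j
  have key : ∀ p ∈ S, ∀ q ∈ S, φ (-n) (w q) ∈ bB (φ 1) (n + m + (⌊R⌋₊ + 1)) δ (φ (-n) (w p)) →
      p = q := fun p hp q hq hb => by
    obtain ⟨p1, p2⟩ := Finset.mem_filter.1 hp
    obtain ⟨q1, q2⟩ := Finset.mem_filter.1 hq
    rw [Finset.mem_product] at p1 q1
    have c : ∀ i < n + m + (⌊R⌋₊ + 1), ∀ s : ℝ, |s| ≤ 1 →
        dist (φ (s + i - n) (w q)) (φ (s + i - n) (w p)) < ε / 5 := fun i hi s hs => by
      have := h2 s s hs hs (by simpa using hδ) _ _ (hb i hi)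
      simpa only [iter, ← φ.map_add, ← sub_eq_add_neg, add_sub_assoc] using this
    refine Prod.ext (by_contra fun e => hF _ p1.1 _ q1.1 e fun i hi => ?_)
      (by_contra fun e => hG _ p1.2 _ q1.2 e fun i hi => ?_)
    · have i0 : (i : ℝ) - n ≤ 0 := sub_nonpos.2 (Nat.cast_le.2 hi.le)
      have c1 := c i (by omega) 0 (by simp)
      have c2 := a p _ i0
      have c3 := a q _ i0
      rw [← φ.map_add, sub_add_cancel] at c2 c3
      rw [zero_add] at c1
      rw [iter, iter]
      linarith [dist_triangle4 (φ i q.1) (φ (i - n) (w q)) (φ (i - n) (w p)) (φ i p.1),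
        dist_comm (φ i q.1) (φ (i - n) (w q))]
    · have f1 := Nat.floor_le (t0 p)
      have f2 := Nat.lt_floor_add_one (t p)
      have c1 := c (n + ⌊t p⌋₊ + i) (by have := Nat.floor_mono (tR p); omega) (t p - ⌊t p⌋₊)
        (abs_le.2 ⟨by linarith, by linarith⟩)
      rw [show t p - ⌊t p⌋₊ + (n + ⌊t p⌋₊ + i : ℕ) - n = t p + i by push_cast; ring] at c1
      have g : ∀ r, ⌊t r / θ⌋₊ = j → j * θ ≤ t r ∧ t r ≤ (j + 1) * θ := fun r hr =>
        ⟨(le_div_iff₀ hθ).1 (hr ▸ Nat.floor_le (div_nonneg (t0 r) hθ.le)),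
          (div_le_iff₀ hθ).1 (hr ▸ (Nat.lt_floor_add_one _).le)⟩
      have c2 := h1 (t q + i) (t p + i) (abs_le.2 ⟨by linarith [g p p2, g q q2],
        by linarith [g p p2, g q q2]⟩) (w q)
      rw [iter, iter]
      linarith [dist_triangle4 (φ i q.2) (φ (t q + i) (w q)) (φ (t p + i) (w q)) (φ i p.2),
        dist_triangle (φ (t p + i) (w q)) (φ (t p + i) (w p)) (φ i p.2), b p i i.cast_nonneg,
        b q i i.cast_nonneg, dist_comm (φ i q.2) (φ (t q + i) (w q))]
  refine ⟨S.image fun p => φ (-n) (w p), fun x hx y hy e hb => ?_, hj.trans_eq ?_⟩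
  · obtain ⟨p, hp, rfl⟩ := Finset.mem_image.1 hx
    obtain ⟨q, hq, rfl⟩ := Finset.mem_image.1 hy
    exact e (by rw [key p hp q hq hb])
  · rw [Finset.card_image_of_injOn fun p hp q hq e => key p hp q hq fun i _ => ?_]
    rw [show φ (-n) (w q) = φ (-n) (w p) from e.symm, dist_self]; exact hδ

end F2

theorem sF2 : StmtF2 := fun _ _ _ φ => ⟨fun _ hU h => F2.glue φ hU h, F2.dglue φ⟩

end Crest.Agent.N221.En
end
end

-- ▼ part N221/En/F3
section

/-!
# Row 221, ergodic layer: dense bi-transitive points (helper25)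
-/

set_option autoImplicit false

open Set Filter Topology

namespace Crest.Agent.N221.En

namespace F3

variable {Y : Type} [MetricSpace Y] {φ : Flow ℝ Y}

theorem cont (t : ℝ) : Continuous (φ t) := φ.continuous continuous_const continuous_id

theorem opn (P : ℝ → Prop) (y : Y) (e : ℝ) : IsOpen {z | ∃ t, P t ∧ dist (φ t z) y < e} := by
  have : {z | ∃ t, P t ∧ dist (φ t z) y < e} = ⋃ t, ⋃ (_ : P t), {z | dist (φ t z) y < e} := by
    ext z; simp
  rw [this]
  exact isOpen_iUnion fun t => isOpen_iUnion fun _ =>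
    isOpen_lt ((cont t).dist continuous_const) continuous_const

theorem dns1 (h : USpec φ) (y : Y) {e : ℝ} (he : 0 < e) (R : ℝ) :
    Dense {z | ∃ t, R ≤ t ∧ dist (φ t z) y < e} := by
  refine Metric.dense_iff.2 fun x ε hε => ?_
  obtain ⟨δ, hδ, h1⟩ :=
    Metric.continuousAt_iff.1 ((cont (φ := φ) (-R)).continuousAt (x := φ R x)) ε hε
  obtain ⟨R', h2⟩ := h (min δ e) (lt_min hδ he)
  obtain ⟨z, t, ht, -, h3, h4⟩ := h2 (φ R x) y
  refine ⟨φ (-R) z, ?_, t + R, by linarith, ?_⟩
  · have := h1 (h3.trans_le (min_le_left _ _))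
    rwa [← φ.map_add, neg_add_cancel, φ.map_zero_apply] at this
  · rw [← φ.map_add, add_neg_cancel_right]
    exact h4.trans_le (min_le_right _ _)

theorem dns2 (h : USpec φ) (y : Y) {e : ℝ} (he : 0 < e) (R : ℝ) :
    Dense {z | ∃ t, t ≤ -R ∧ dist (φ t z) y < e} := by
  refine Metric.dense_iff.2 fun x ε hε => ?_
  obtain ⟨δ, hδ, h1⟩ :=
    Metric.continuousAt_iff.1 ((cont (φ := φ) R).continuousAt (x := φ (-R) x)) ε hε
  obtain ⟨R', h2⟩ := h (min δ e) (lt_min hδ he)
  obtain ⟨z, t, ht, -, h3, h4⟩ := h2 y (φ (-R) x)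
  refine ⟨φ R (φ t z), ?_, -(R + t), by linarith, ?_⟩
  · have := h1 (h4.trans_le (min_le_left _ _))
    rwa [← φ.map_add R (-R), add_neg_cancel, φ.map_zero_apply] at this
  · rw [← φ.map_add R t, ← φ.map_add, neg_add_cancel, φ.map_zero_apply]
    exact h3.trans_le (min_le_right _ _)

end F3

open F3 in
theorem sF3 : StmtF3 := by
  intro Y _ _ φ h
  have hd : Dense {z | BiTrans univ φ z} := by
    obtain ⟨s, hs, hsd⟩ := TopologicalSpace.exists_countable_dense Y
    have := hs.to_subtype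
    have hp : ∀ j : ℕ, (0 : ℝ) < 1 / (j + 1) := fun j => Nat.one_div_pos_of_nat
    have h1 := dense_iInter_of_isOpen (X := Y) (ι := s × ℕ × ℕ)
      (f := fun q => {z | ∃ t, (q.2.2 : ℝ) ≤ t ∧ dist (φ t z) q.1 < 1 / (q.2.1 + 1)} ∩
        {z | ∃ t, t ≤ -(q.2.2 : ℝ) ∧ dist (φ t z) q.1 < 1 / (q.2.1 + 1)})
      (fun q => (opn _ _ _).inter (opn _ _ _))
      (fun q => (dns1 h _ (hp _) _).inter_of_isOpen_left (dns2 h _ (hp _) _) (opn _ _ _))
    refine h1.mono fun z hz y _ ε hε R => ?_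
    obtain ⟨j, hj⟩ := exists_nat_one_div_lt (half_pos hε)
    obtain ⟨y', hy', hys⟩ := Metric.dense_iff.1 hsd y _ (half_pos hε)
    obtain ⟨n, hn⟩ := exists_nat_ge R
    obtain ⟨⟨t, h2, h3⟩, t', h4, h5⟩ := mem_iInter.1 hz (⟨y', hys⟩, j, n)
    rw [Metric.mem_ball] at hy'
    refine ⟨⟨t, hn.trans h2, ?_⟩, t', h4.trans (neg_le_neg hn), ?_⟩
    · linarith [dist_triangle (φ t z) y' y]
    · linarith [dist_triangle (φ t' z) y' y]
  refine ⟨hd, fun g hg hi x y => ?_⟩
  obtain ⟨z, hz⟩ := @Dense.nonempty _ _ _ ⟨x⟩ hd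
  have key : ∀ p, g p = g z := by
    intro p
    have hc : IsClosed {p | g p = g z} := isClosed_eq hg continuous_const
    refine hc.closure_subset (Metric.mem_closure_iff.2 fun ε hε => ?_)
    obtain ⟨⟨t, -, ht⟩, -⟩ := hz p trivial ε hε 0
    exact ⟨φ t z, hi t z, by rwa [dist_comm]⟩
  rw [key x, key y]

end Crest.Agent.N221.En
end

-- ▼ part N221/En/F4
section

/-!
# Row 221, ergodic layer: a bounded cocycle is a continuous coboundary (helper25)
-/

set_option autoImplicit false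

open Set Filter Topology

namespace Crest.Agent.N221.En

namespace F4

variable {Y : Type} [MetricSpace Y] {φ : Flow ℝ Y} {g : ℝ → Y → ℝ} {C : ℝ}

/-- transitive along the filter `l` -/
def Tr (φ : Flow ℝ Y) (l : Filter ℝ) (z : Y) : Prop :=
  ∀ y, ∀ ε > 0, ∃ᶠ t in l, dist (φ t z) y < ε

theorem bi_iff {z : Y} : BiTrans univ φ z ↔ Tr φ atTop z ∧ Tr φ atBot z := by
  constructor
  · intro h
    refine ⟨fun y ε hε => frequently_atTop.2 fun R => (h y trivial ε hε R).1,
      fun y ε hε => frequently_atBot.2 fun R => ?_⟩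
    simpa using (h y trivial ε hε (-R)).2
  · rintro ⟨h1, h2⟩ y - ε hε R
    exact ⟨frequently_atTop.1 (h1 y ε hε) R, frequently_atBot.1 (h2 y ε hε) (-R)⟩

theorem Tr.shift {l : Filter ℝ} (hl : ∀ r, Tendsto (fun t => t + r) l l) {z : Y} (h : Tr φ l z)
    (r : ℝ) : Tr φ l (φ r z) := by
  intro y ε hε
  refine (hl (-r)).frequently ((h y ε hε).mono fun t ht => ?_)
  rwa [← φ.map_add, neg_add_cancel_right]

theorem Tr.asym {l : Filter ℝ} {z w : Y} (h : Tr φ l z)
    (hw : Tendsto (fun t => dist (φ t w) (φ t z)) l (𝓝 0)) : Tr φ l w := by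
  intro y ε hε
  refine ((h y _ (half_pos hε)).and_eventually (hw.eventually (gt_mem_nhds (half_pos hε)))).mono
    fun t ht => ?_
  linarith [dist_triangle (φ t w) (φ t z) y, ht.1, ht.2]

theorem near_sup {l : Filter ℝ} (hl : ∀ r, Tendsto (fun t => t + r) l l) {P : ℝ → Prop}
    (hP : ∀ᶠ t in l, P t) (hc : ∀ t, Continuous (g t))
    (ha : ∀ s t z, g (s + t) z = g t z + g s (φ t z)) (hb : ∀ t z, |g t z| ≤ C) {z : Y}
    (h : Tr φ l z) {η : ℝ} (hη : 0 < η) : ∃ t, P t ∧ ∀ s, g s z ≤ g t z + η := by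
  set F : ℝ × ℝ × Y → ℝ := fun q => g q.1 q.2.2 - g q.2.1 q.2.2 with hF
  have hB : BddAbove (range F) := ⟨2 * C, by
    rintro _ ⟨q, rfl⟩
    have h1 := abs_le.1 (hb q.1 q.2.2)
    have h2 := abs_le.1 (hb q.2.1 q.2.2)
    simp only [hF]
    linarith [h1.2, h2.1]⟩
  have : Nonempty (ℝ × ℝ × Y) := ⟨(0, 0, z)⟩
  obtain ⟨⟨t1, t2, p⟩, hq⟩ := exists_lt_of_lt_ciSup (show iSup F - η < iSup F by linarith)
  have ho : IsOpen {p | iSup F - η < g t1 p - g t2 p} :=
    isOpen_lt continuous_const ((hc t1).sub (hc t2))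
  obtain ⟨ε, hε, h1⟩ := Metric.isOpen_iff.1 ho p hq
  obtain ⟨t, h2, h3⟩ := ((h p ε hε).and_eventually ((hl t1).eventually hP)).exists
  refine ⟨t + t1, h3, fun s => ?_⟩
  have h4 : iSup F - η < g t1 (φ t z) - g t2 (φ t z) := h1 h2
  have h5 : g s z - g (t2 + t) z ≤ iSup F := le_ciSup hB (s, t2 + t, z)
  rw [add_comm t t1, ha t1 t z]
  rw [ha t2 t z] at h5
  linarith

end F4

open F4 in
theorem sF4 : StmtF4 := by
  intro Y _ _ φ σ hσ hadd hL hD h C hb
  set g : ℝ → Y → ℝ := fun t z => σ t z - h * t with hg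
  have hgc : Continuous fun p : ℝ × Y => g p.1 p.2 := hσ.sub (by fun_prop)
  have hc : ∀ t, Continuous (g t) := fun t => hgc.comp (Continuous.prodMk_right t)
  have ha : ∀ s t z, g (s + t) z = g t z + g s (φ t z) := by
    intro s t z
    simp only [hg, hadd]
    ring
  have hb' : ∀ t z, |g t z| ≤ C := hb
  have hB : ∀ z, BddAbove (range fun t => g t z) := fun z =>
    ⟨C, by rintro _ ⟨t, rfl⟩; exact (abs_le.1 (hb' t z)).2⟩
  set u : Y → ℝ := fun z => ⨆ t, g t z with hu
  have hle : ∀ t z, g t z ≤ u z := fun t z => le_ciSup (hB z) t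
  have hsh : ∀ s z, g s z = u z - u (φ s z) := by
    intro s z
    have h1 : u (φ s z) ≤ u z - g s z := ciSup_le fun t => by linarith [hle (t + s) z, ha t s z]
    have h2 : u z ≤ u (φ s z) + g s z := ciSup_le fun t => by
      have := ha (t - s) s z
      rw [sub_add_cancel] at this
      linarith [hle (t - s) (φ s z)]
    linarith
  have hT : ∀ r : ℝ, Tendsto (fun t => t + r) atTop atTop := fun r =>
    tendsto_atTop_add_const_right _ r tendsto_id
  have hT' : ∀ r : ℝ, Tendsto (fun t => t + r) atBot atBot := fun r =>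
    tendsto_atBot_add_const_right _ r tendsto_id
  have h0 : ∀ z, g 0 z = 0 := fun z => by
    have := ha 0 0 z
    rw [add_zero, φ.map_zero_apply] at this
    linarith
  have key : ∀ ε > 0, ∃ η > 0, ∀ x y, BiTrans univ φ x → BiTrans univ φ y → dist x y < η →
      u x - u y < ε := by
    intro ε hε
    have h1 : ∀ᶠ r in 𝓝 (0 : ℝ), ∀ p ∈ (univ : Set Y), |g r p| < ε / 8 := by
      refine isCompact_univ.eventually_forall_of_forall_eventually fun p _ => ?_
      refine (isOpen_lt hgc.abs continuous_const).mem_nhds ?_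
      change |g 0 p| < ε / 8
      rw [h0, abs_zero]
      positivity
    obtain ⟨δ, hδ, h2⟩ := Metric.eventually_nhds_iff.1 h1
    obtain ⟨η, hη, h3⟩ := hL (min (δ / 2) (ε / 8)) (by positivity)
    refine ⟨η, hη, fun x y hx hy hxy => ?_⟩
    obtain ⟨w, -, r, r', hr, hr', h4, h5, -, h6⟩ := h3 x trivial y trivial hxy
    have hs : ∀ r p, |r| ≤ min (δ / 2) (ε / 8) → |g r p| < ε / 8 := fun r p hr =>
      h2 (by rw [Real.dist_eq, sub_zero]; linarith [min_le_left (δ / 2) (ε / 8)]) p trivial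
    have hm := min_le_right (δ / 2) (ε / 8)
    obtain ⟨t, ht, h7⟩ := near_sup hT (eventually_ge_atTop 0) hc ha hb'
      ((bi_iff.1 hx).1.shift hT r) (show 0 < ε / 8 by positivity)
    have hw : Tr φ atBot w := ((bi_iff.1 hy).2.shift hT' r').asym (by
      simpa only [φ.map_add] using h6)
    obtain ⟨t', ht', h8⟩ := near_sup hT' (eventually_le_atBot 0) hc ha hb' hw
      (show 0 < ε / 8 by positivity)
    have h9 : u (φ r x) ≤ g t (φ r x) + ε / 8 := ciSup_le h7
    have h10 : u w ≤ g t' w + ε / 8 := ciSup_le h8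
    have h11 := abs_le.1 (h4 t ht).2
    have h12 := abs_le.1 (h5 t' ht').2
    have h13 := abs_lt.1 (hs r x hr)
    have h14 := abs_lt.1 (hs r' y hr')
    have h15 := hle t w
    have h16 := hle t' (φ r' y)
    have h17 := hsh r x
    have h18 := hsh r' y
    simp only [hg] at h9 h10 h15 h16
    linarith [h11.1, h12.2, h13.2, h14.1]
  have hU : UniformContinuous fun p : {z | BiTrans univ φ z} => u p := by
    refine Metric.uniformContinuous_iff.2 fun ε hε => ?_
    obtain ⟨η, hη, h1⟩ := key ε hε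
    refine ⟨η, hη, fun {x y} hxy => ?_⟩
    rw [Real.dist_eq, abs_sub_lt_iff]
    exact ⟨h1 _ _ x.2 y.2 hxy, h1 _ _ y.2 x.2 (by rwa [dist_comm])⟩
  have hac := (hD.uniformContinuous_extend hU).continuous
  refine ⟨_, hac.continuousOn, fun z _ t => ?_⟩
  have hφ : Continuous (φ t) := φ.continuous continuous_const continuous_id
  refine congrFun (Continuous.ext_on hD (hc t) (hac.sub (hac.comp hφ)) fun p hp => ?_) z
  have hp' : BiTrans univ φ (φ t p) :=
    bi_iff.2 ⟨(bi_iff.1 hp).1.shift hT t, (bi_iff.1 hp).2.shift hT' t⟩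
  have e1 := hD.extend_of_ind hU ⟨p, hp⟩
  have e2 := hD.extend_of_ind hU ⟨φ t p, hp'⟩
  simp only [Pi.sub_apply, Function.comp_apply]
  rw [e1, e2]
  exact hsh t p

end Crest.Agent.N221.En
end

-- ▼ part N221/En/F5
section

/-!
# Row 221, abstract ergodic layer: leaf F5 (continuous time to discrete time)
-/

set_option autoImplicit false

open MeasureTheory Set Filter Topology

noncomputable section

namespace Crest.Agent.N221.En

namespace F5

variable {Y : Type} [MetricSpace Y] (φ : Flow ℝ Y)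

theorem iter (n : ℕ) (z : Y) : (φ 1)^[n] z = φ n z := by
  induction n with
  | zero => simp
  | succ n ih => rw [Function.iterate_succ_apply', ih, ← φ.map_add, add_comm]; push_cast; rfl

theorem unif [CompactSpace Y] {ε : ℝ} (hε : 0 < ε) : ∃ ε' > 0, ∀ p q : Y, dist p q < ε' →
    ∀ s ∈ Icc (0 : ℝ) 1, dist (φ s p) (φ s q) < ε := by
  have h := (isCompact_Icc.prod isCompact_univ :
    IsCompact (Icc (0 : ℝ) 1 ×ˢ (univ : Set Y))).uniformContinuousOn_of_continuous
    (φ.continuous continuous_fst continuous_snd).continuousOn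
  obtain ⟨δ, hδ, h1⟩ := Metric.uniformContinuousOn_iff.1 h ε hε
  exact ⟨δ, hδ, fun p q hpq s hs => h1 (s, p) ⟨hs, trivial⟩ (s, q) ⟨hs, trivial⟩ (by simpa)⟩

theorem split (n : ℕ) {s : ℝ} (h0 : 0 ≤ s) (h1 : s ≤ n + 1) :
    ∃ i : ℕ, i ≤ n ∧ s - i ∈ Icc (0 : ℝ) 1 := by
  induction n with
  | zero => exact ⟨0, le_rfl, by simpa using h0, by simpa using h1⟩
  | succ n ih =>
    rcases le_total s (n + 1) with h | h
    · obtain ⟨i, hi, h2⟩ := ih h
      exact ⟨i, by omega, h2⟩
    · exact ⟨n + 1, le_rfl, by push_cast; linarith, by linarith⟩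

variable {τ : Y → ℝ}

theorem cont (hτ : Continuous τ) : Continuous fun p : ℝ × Y => fS φ τ p.1 p.2 :=
  (intervalIntegral.continuous_parametric_primitive_of_continuous (μ := volume) (a₀ := 0)
    (f := fun (z : Y) (s : ℝ) => τ (φ s z))
    (hτ.comp (φ.continuous continuous_snd continuous_fst))).comp continuous_swap

theorem coc (hτ : Continuous τ) (s t : ℝ) (z : Y) :
    fS φ τ (s + t) z = fS φ τ t z + fS φ τ s (φ t z) := by
  have hc : Continuous fun u => τ (φ u z) := hτ.comp (φ.continuous continuous_id continuous_const)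
  have e := intervalIntegral.integral_comp_add_right (a := 0) (b := s) (fun u => τ (φ u z)) t
  simp only [fS, ← φ.map_add]
  rw [e, zero_add, intervalIntegral.integral_add_adjacent_intervals (hc.intervalIntegrable _ _)
    (hc.intervalIntegrable _ _)]

theorem birk (hτ : Continuous τ) (n : ℕ) (z : Y) :
    birkhoffSum (φ 1) (fS φ τ 1) n z = fS φ τ n z := by
  induction n with
  | zero => simp [fS]
  | succ n ih => rw [birkhoffSum_succ, ih, iter, ← coc φ hτ, add_comm]; push_cast; rfl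

end F5

open F5 in
theorem sF5 : StmtF5 := by
  intro Y _ _ _ _ μ _ φ τ hτ
  refine ⟨cont φ hτ, coc φ hτ, birk φ hτ, ?_, fun h => ⟨fun ε hε => ?_, ?_⟩, fun h C hC => ?_⟩
  · rintro ⟨ε, hε, C, hC, h⟩
    obtain ⟨ε', hε', h1⟩ := unif φ hε
    refine ⟨ε', hε', max C 1, by positivity, fun z n => ?_⟩
    obtain _ | n := n
    · simp
    rw [birk φ hτ]
    refine le_trans (measureReal_mono (s₂ := fB univ φ (n + 1 : ℕ) ε z)
      fun y hy => ⟨trivial, fun s hs => ?_⟩) ((h z trivial _ (Nat.cast_nonneg (n + 1))).trans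
        (mul_le_mul_of_nonneg_right (le_max_left _ _) (Real.exp_pos _).le))
    obtain ⟨i, hi, h2⟩ := split n hs.1 (by simpa using hs.2)
    have h3 := hy i (by omega)
    rw [iter, iter] at h3
    simpa only [← φ.map_add, sub_add_cancel] using h1 _ _ h3 _ h2
  · obtain ⟨c, hc, h1⟩ := h ε hε
    refine ⟨c, hc, fun z n => ?_⟩
    rw [birk φ hτ]
    refine (h1 z trivial n (Nat.cast_nonneg n)).trans (measureReal_mono fun y hy i hi => ?_)
    rw [iter, iter]
    exact hy.2 i ⟨Nat.cast_nonneg i, Nat.cast_le.2 hi.le⟩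
  · refine ⟨fun U hU ⟨z, hz⟩ h0 => ?_⟩
    obtain ⟨ε, hε, hb⟩ := Metric.isOpen_iff.1 hU z hz
    obtain ⟨c, hc, h1⟩ := h ε hε
    have h2 : μ (fB univ φ 0 ε z) = 0 :=
      measure_mono_null (fun y hy => hb (by simpa using hy.2 0 ⟨le_rfl, le_rfl⟩)) h0
    have h3 := h1 z trivial 0 le_rfl
    rw [measureReal_def, h2, ENNReal.toReal_zero] at h3
    exact absurd h3 (not_le.2 (by positivity))
  · obtain ⟨M, hM⟩ := (isCompact_Icc.prod isCompact_univ :
      IsCompact (Icc (0 : ℝ) 1 ×ˢ (univ : Set Y))).exists_bound_of_continuousOn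
      (f := fun p : ℝ × Y => fS φ τ p.1 p.2 - h * p.1)
      ((cont φ hτ).sub (continuous_const.mul continuous_fst)).continuousOn
    have h1 : ∀ t z, 0 ≤ t → |fS φ τ t z - h * t| ≤ C + M := fun t z ht => by
      have a1 := hM (t - ⌊t⌋₊, φ ⌊t⌋₊ z)
        ⟨⟨sub_nonneg.2 (Nat.floor_le ht), by linarith [Nat.lt_floor_add_one t]⟩, trivial⟩
      have a2 := coc φ hτ (t - ⌊t⌋₊) ⌊t⌋₊ z
      rw [sub_add_cancel] at a2
      have a3 := abs_le.1 (hC z ⌊t⌋₊)
      have a4 := abs_le.1 a1
      simp only at a4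
      rw [a2, abs_le]
      constructor <;> linarith
    refine ⟨C + M, fun t z => ?_⟩
    rcases le_total 0 t with ht | ht
    · exact h1 t z ht
    · have a1 := coc φ hτ (-t) t z
      have a2 := abs_le.1 (h1 (-t) (φ t z) (by linarith))
      have a3 : fS φ τ (-t + t) z = 0 := by simp [fS]
      rw [abs_le]
      constructor <;> linarith

end Crest.Agent.N221.En
end
end

-- ▼ part N221/En/Tr
section

/-! # Row 221, ergodic layer: `Tr`, transfer of `ksEntropy` to the subtype (helper36) -/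

set_option autoImplicit false

open MeasureTheory Set Filter Topology
open Crest.GeometryTopology.Submanifold

noncomputable section

namespace Crest.Agent.N221.En

namespace Tr

open Classical

variable {E : Type} {X : Set E}

/-- the trace of a family on `X` -/
def tr (X : Set E) (P : Finset (Set E)) : Finset (Set X) := P.image fun A => Subtype.val ⁻¹' A

theorem pre_cyl {T : E → E} (hT : MapsTo T X X) {P : Finset (Set E)} {k : ℕ} (w : Fin k → P)
    (w' : Fin k → tr X P) (h : ∀ i, Subtype.val ⁻¹' (w i : Set E) = (w' i : Set X)) :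
    Subtype.val ⁻¹' cyl T P k w = cyl (hT.restrict T X X) (tr X P) k w' := by
  ext y
  simp only [cyl, mem_preimage, mem_iInter, ← h, MapsTo.coe_iterate_restrict]

theorem join_tr {T : E → E} (hT : MapsTo T X X) (P : Finset (Set E)) (k : ℕ) :
    iteratedJoin (hT.restrict T X X) (tr X P) k = tr X (iteratedJoin T P k) := by
  ext A
  rw [K0.mem_join]
  constructor
  · rintro ⟨w', rfl⟩
    choose B hB h using fun i => Finset.mem_image.1 (w' i).2
    exact Finset.mem_image.2 ⟨_, K0.mem_join.2 ⟨fun i => ⟨B i, hB i⟩, rfl⟩, pre_cyl hT _ _ h⟩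
  · intro h
    obtain ⟨B, hB, rfl⟩ := Finset.mem_image.1 h
    obtain ⟨w, rfl⟩ := K0.mem_join.1 hB
    exact ⟨fun i => ⟨_, Finset.mem_image_of_mem _ (w i).2⟩, (pre_cyl hT _ _ fun _ => rfl).symm⟩

theorem union_tr (P : Finset (Set E)) :
    (⋃ A ∈ tr X P, A)ᶜ = Subtype.val ⁻¹' (⋃ A ∈ P, A)ᶜ := by
  rw [tr, Finset.set_biUnion_finset_image, preimage_compl, preimage_iUnion₂]

variable [MeasurableSpace E] {μ : Measure E}

theorem meas_pre (hX : MeasurableSet X) (h0 : μ Xᶜ = 0) (A : Set E) :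
    μ.comap (Subtype.val : X → E) (Subtype.val ⁻¹' A) = μ A := by
  rw [(MeasurableEmbedding.subtype_coe hX).comap_apply, Subtype.image_preimage_coe, inter_comm,
    measure_inter_conull h0]

theorem ent_tr (hX : MeasurableSet X) (h0 : μ Xᶜ = 0) {Q : Finset (Set E)}
    (hQ : ∀ A ∈ Q, ∀ B ∈ Q, A ≠ B → Disjoint A B) :
    partitionEntropy (μ.comap (Subtype.val : X → E)) (tr X Q) = partitionEntropy μ Q := by
  rw [K0.ent_eq, K0.ent_eq, tr, Finset.sum_image_of_disjoint
    (g := fun A => Real.negMulLog ((μ.comap (Subtype.val : X → E)).real A)) (by simp)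
    fun A hA B hB h => (hQ A hA B hB h).preimage _]
  exact Finset.sum_congr rfl fun A _ => by rw [Measure.real, meas_pre hX h0, Measure.real]

theorem rate_tr (hX : MeasurableSet X) (h0 : μ Xᶜ = 0) {T : E → E} (hT : MapsTo T X X)
    {P : Finset (Set E)} (hP : ∀ A ∈ P, ∀ B ∈ P, A ≠ B → Disjoint A B) :
    rate (μ.comap (Subtype.val : X → E)) (hT.restrict T X X) (tr X P) = rate μ T P := by
  refine iInf_congr fun k => ?_
  rw [join_tr, ent_tr hX h0]
  intro A hA B hB h
  obtain ⟨w, rfl⟩ := K0.mem_join.1 hA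
  obtain ⟨w', rfl⟩ := K0.mem_join.1 hB
  exact K0.disj T _ hP w w' fun e => h (by rw [e])

theorem part_tr (hX : MeasurableSet X) (h0 : μ Xᶜ = 0) {P : Finset (Set E)}
    (hP : IsPartitionMod μ P) : IsPartitionMod (μ.comap (Subtype.val : X → E)) (tr X P) := by
  refine ⟨fun A hA => ?_, fun A hA B hB h => ?_, by rw [union_tr, meas_pre hX h0, hP.2.2]⟩
  · obtain ⟨B, hB, rfl⟩ := Finset.mem_image.1 hA
    exact measurable_subtype_coe (hP.1 B hB)
  · obtain ⟨A, hA', rfl⟩ := Finset.mem_image.1 hA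
    obtain ⟨B, hB', rfl⟩ := Finset.mem_image.1 hB
    exact (hP.2.1 A hA' B hB' fun e => h (by rw [e])).preimage _

theorem exists_tr (hX : MeasurableSet X) (h0 : μ Xᶜ = 0) {Q : Finset (Set X)}
    (hQ : IsPartitionMod (μ.comap (Subtype.val : X → E)) Q) :
    ∃ P, IsPartitionMod μ P ∧ tr X P = Q := by
  have e : tr X (Q.image fun A => Subtype.val '' A) = Q := by
    rw [tr, Finset.image_image]
    exact (Finset.image_congr fun A _ => preimage_image_eq A Subtype.val_injective).trans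
      Finset.image_id
  refine ⟨_, ⟨fun A hA => ?_, fun A hA B hB h => ?_, ?_⟩, e⟩
  · obtain ⟨B, hB, rfl⟩ := Finset.mem_image.1 hA
    exact (MeasurableEmbedding.subtype_coe hX).measurableSet_image.2 (hQ.1 B hB)
  · obtain ⟨A, hA', rfl⟩ := Finset.mem_image.1 hA
    obtain ⟨B, hB', rfl⟩ := Finset.mem_image.1 hB
    exact disjoint_image_of_injective Subtype.val_injective
      (hQ.2.1 A hA' B hB' fun e => h (by rw [e]))
  · rw [← meas_pre hX h0, ← union_tr, e, hQ.2.2]

end Tr

open Tr in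
theorem sTr : StmtTr := by
  intro E _ X μ T hT hX h0
  unfold ksEntropy
  congr 1
  ext h
  constructor
  · rintro ⟨P, hP, rfl⟩
    exact ⟨tr X P, part_tr hX h0 hP, (rate_tr hX h0 hT hP.2.1).symm⟩
  · rintro ⟨Q, hQ, rfl⟩
    obtain ⟨P, hP, rfl⟩ := exists_tr hX h0 hQ
    exact ⟨P, hP, rate_tr hX h0 hT hP.2.1⟩

end Crest.Agent.N221.En
end
end

-- ▼ part N221/En/All

/-! # Row 221, abstract ergodic layer: everything wired (helper33) -/

set_option autoImplicit false

namespace Crest.Agent.N221.En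

theorem mainT : StmtMainT :=
  sMainT (sK1 sK0 sS0) (sK2 sK0) (sC sS0) (sT3 sS0 (sC sS0)) (sG1 sS0) (sG2 sS0) sG3 sF1 sF2 sF3
    sF4 sF5

theorem main : StmtMain := sMain mainT sTr

end Crest.Agent.N221.En
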